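import Vale.Agent.P212H52.Rows

/-! Pairs of idempotents: cocycle identity, isometries, and the combinatorial swindle. -/

set_option linter.unusedSectionVars false

namespace Vale.Agent.P212H

open Vale.Agent.P212 Vale.Agent.P212Z Matrix

section Pair

variable {M Q B : Type} [Ring M] [Algebra ℂ M] [Ring Q] [NormedRing B] [NormedAlgebra ℂ B]
  [CompleteSpace B] {R : Rel M Q B} {ι : Type} [Fintype ι] [DecidableEq ι]

theorem del_cocycle (x y z : IPair R ι) (h1 : y.e = x.f) (h2 : z.e = x.e) (h3 : z.f = y.f) :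
    z.del = x.del + y.del := by
  obtain ⟨e, f, he, hf, hq⟩ := x
  obtain ⟨f', g, hf', hg, hq'⟩ := y
  obtain ⟨e', g', he', hg', hq''⟩ := z
  dsimp only at h1 h2 h3
  subst h1 h2 h3
  let w : IPair R ι := ⟨f', f', hf, hf, rfl⟩
  have a1 : e' * (e' * f') = e' * f' := by rw [← mul_assoc, he]
  have b1 : f' * (f' * e') = f' * e' := by rw [← mul_assoc, hf]
  have e1 : ∀ a, e' * (e' * a) = e' * a := fun a => by rw [← mul_assoc, he]
  have f1 : ∀ a, f' * (f' * a) = f' * a := fun a => by rw [← mul_assoc, hf]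
  have hu : fromBlocks (e' - e' * f' * e') (e' * f') (2 * (f' * e') - f' * e' * f' * e')
      (f' * e' * f' - f') * fromBlocks (e' - e' * f' * e') (e' * f')
      (2 * (f' * e') - f' * e' * f' * e') (f' * e' * f' - f') = fromBlocks e' 0 0 f' := by
    rw [fromBlocks_multiply]
    congr 1 <;>
    simp only [two_mul, mul_add, add_mul, mul_sub, sub_mul, mul_assoc, e1, f1, he, hf] <;> abel
  have hf2 : f'.map R.q * f'.map R.q = f'.map R.q := mapMat_idem R.q hf
  have hm : (fromBlocks (e' - e' * f' * e') (e' * f') (2 * (f' * e') - f' * e' * f' * e')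
      (f' * e' * f' - f')).map R.q = fromBlocks 0 (f'.map R.q) (f'.map R.q) 0 := by
    rw [fromBlocks_map]
    congr 1 <;>
    simp only [two_mul, Matrix.map_sub _ (map_sub R.q), Matrix.map_add _ (map_add R.q),
      Matrix.map_mul, hq, hf2, sub_self, add_sub_cancel_right]
  have h := IPair.del_mvn ((⟨e', f', he, hf, hq⟩ : IPair R ι).sum ⟨f', g', hf', hg, hq'⟩)
    ((⟨e', g', he', hg', hq''⟩ : IPair R ι).sum w) _ (fromBlocks 0 f' g' 0) _
    (fromBlocks 0 g' f' 0) hu hu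
    (by rw [fromBlocks_multiply]; simp [IPair.sum, hf, hg])
    (by rw [fromBlocks_multiply]; simp [IPair.sum, hf, hg, w])
    (by rw [hm, fromBlocks_map, ← hq', Matrix.map_zero _ (map_zero _)])
    (by rw [hm, fromBlocks_map, ← hq', Matrix.map_zero _ (map_zero _)])
  rw [IPair.del_sum, IPair.del_sum, w.del_self rfl, add_zero] at h
  exact h.symm

theorem iso_aux {S : Type} [Ring S] {e e' W W' : S} (hW : W' * W = 1) (he : e * e = e)
    (h1 : e * W = W * e') (h2 : W' * e = e' * W') :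
    e * W * (W' * e) + e * (1 - W * W') * ((1 - W * W') * e) = e ∧ W' * e * (e * W) = e' ∧
      W' * e * (e * (1 - W * W')) = 0 ∧ (1 - W * W') * e * (e * W) = 0 ∧
      (1 - W * W') * e * (e * (1 - W * W')) = e * (1 - W * W') ∧
      e * (1 - W * W') * (e * (1 - W * W')) = e * (1 - W * W') := by
  have c : e * (1 - W * W') = (1 - W * W') * e := by
    rw [mul_sub, sub_mul, mul_one, one_mul, ← mul_assoc, h1, mul_assoc, ← h2, mul_assoc]
  have p : (1 - W * W') * (1 - W * W') = 1 - W * W' := by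
    rw [sub_mul, one_mul, mul_sub, mul_one, mul_assoc W W', ← mul_assoc W', hW, one_mul,
      sub_self, sub_zero]
  have p1 : W' * (1 - W * W') = 0 := by rw [mul_sub, mul_one, ← mul_assoc, hW, one_mul, sub_self]
  have p2 : (1 - W * W') * W = 0 := by rw [sub_mul, one_mul, mul_assoc, hW, mul_one, sub_self]
  have k : ∀ a b : S, a * e * (e * b) = a * (e * b) := fun a b => by
    rw [mul_assoc, ← mul_assoc e, he]
  have l : (1 - W * W') * e * (e * (1 - W * W')) = e * (1 - W * W') := by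
    rw [k, ← mul_assoc, ← c, mul_assoc, p]
  refine ⟨?_, ?_, ?_, ?_, l, ?_⟩
  · rw [mul_assoc e (1 - _), ← mul_assoc (1 - _), p, mul_assoc, ← mul_add, ← mul_assoc W,
      ← add_mul, add_sub_cancel, one_mul, he]
  · rw [k, ← mul_assoc, h2, mul_assoc, hW, mul_one]
  · rw [k, ← mul_assoc, h2, mul_assoc, p1, mul_zero]
  · rw [k, h1, ← mul_assoc, p2, zero_mul]
  · exact (congrArg (· * (e * (1 - W * W'))) c).trans l

theorem del_iso (x y : IPair R ι) {W W' : Matrix ι ι M} (hW : W' * W = 1)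
    (e1 : x.e * W = W * y.e) (e2 : W' * x.e = y.e * W') (f1 : x.f * W = W * y.f)
    (f2 : W' * x.f = y.f * W') (h : x.e * (1 - W * W') = x.f * (1 - W * W')) : x.del = y.del := by
  obtain ⟨a1, a2, a3, a4, a5, a6⟩ := iso_aux hW x.he e1 e2
  obtain ⟨b1, b2, b3, b4, b5, -⟩ := iso_aux hW x.hf f1 f2
  let w : IPair R ι := ⟨x.e * (1 - W * W'), x.e * (1 - W * W'), a6, a6, rfl⟩
  have h1 := IPair.del_mvn x (y.sum w) (fromCols (x.e * W) (x.e * (1 - W * W')))
    (fromCols (x.f * W) (x.f * (1 - W * W'))) (fromRows (W' * x.e) ((1 - W * W') * x.e))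
    (fromRows (W' * x.f) ((1 - W * W') * x.f))
    (by rw [fromCols_mul_fromRows, a1]) (by rw [fromRows_mul_fromCols, a2, a3, a4, a5]; rfl)
    (by rw [fromCols_mul_fromRows, b1]) (by rw [fromRows_mul_fromCols, b2, b3, b4, b5, ← h]; rfl)
    (by rw [fromCols_map, fromCols_map, Matrix.map_mul, Matrix.map_mul, Matrix.map_mul,
      Matrix.map_mul, x.h])
    (by rw [fromRows_map, fromRows_map, Matrix.map_mul, Matrix.map_mul, Matrix.map_mul,
      Matrix.map_mul, x.h])
  rwa [IPair.del_sum, w.del_self rfl, add_zero] at h1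

theorem del_diff (x y : IPair R ι) (z : IPair R (ι ⊕ ι)) (h1 : z.e = dM x.e x.f)
    (h2 : z.f = dM y.e y.f) : z.del = x.del - y.del := by
  rw [z.del_of_P x.dP y.dP x.dP_idem y.dP_idem h1.symm h2.symm rfl]
  unfold IPair.del
  abel

theorem pair_q {S Q : Type} [Ring S] [Ring Q] (q : S →+* Q) {p₀ p₁ T U : S} (h₁ : p₁ * p₁ = p₁)
    (h0 : q (U * T) = q p₀) (h1 : q (T * U) = q p₁) :
    (vecMulVec (xV p₀ T U) (yV p₀ T U)).map q = (vecMulVec (pV p₁) (pV p₁)).map q := by
  have h2 : q (p₀ - U * T) = 0 := by rw [map_sub, h0, sub_self]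
  ext i k
  fin_cases i <;> fin_cases k
  · change q ((2 * T - T * U * T) * U) = q (p₁ * p₁)
    have h : (2 * T - T * U * T) * U = 2 * (T * U) - T * U * (T * U) := by noncomm_ring
    rw [h, map_sub, map_mul, map_mul _ (T * U), h1, ← map_mul q p₁, h₁, map_ofNat,
      two_mul, add_sub_cancel_right]
  · change q ((2 * T - T * U * T) * (p₀ - U * T)) = q (p₁ * 0)
    rw [map_mul, h2, mul_zero, mul_zero, map_zero]
  · change q ((p₀ - U * T) * U) = q (0 * p₁)
    rw [map_mul, h2, zero_mul, zero_mul, map_zero]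
  · change q ((p₀ - U * T) * (p₀ - U * T)) = q (0 * 0)
    rw [map_mul, h2, zero_mul, zero_mul, map_zero]

end Pair

/-- The index set of the swindle. -/
abbrev JJ : Type := ℤ × ℕ

/-- Asymptotic time functions. -/
def Asy (τ τ' : JJ → unitInterval) : Prop := ∀ ε : ℝ, 0 < ε → {j | ε < dist (τ j) (τ' j)}.Finite

theorem Asy.symm {τ τ' : JJ → unitInterval} (h : Asy τ τ') : Asy τ' τ := fun ε hε => by
  simpa only [dist_comm] using h ε hε

theorem Asy.trans {τ τ' τ'' : JJ → unitInterval} (h : Asy τ τ') (h' : Asy τ' τ'') : Asy τ τ'' :=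
  fun ε hε => ((h _ (half_pos hε)).union (h' _ (half_pos hε))).subset fun j hj => by
    by_contra h0
    simp only [Set.mem_union, Set.mem_ofPred_eq, not_or, not_lt] at h0 hj
    linarith [dist_triangle (τ j) (τ' j) (τ'' j), h0.1, h0.2]

theorem Asy.comp {τ τ' : JJ → unitInterval} (h : Asy τ τ') {i : JJ → JJ}
    (hi : Function.Injective i) : Asy (τ ∘ i) (τ' ∘ i) :=
  fun ε hε => Set.Finite.preimage (f := i) hi.injOn (h ε hε)

/-- The times. -/
noncomputable def tm (j : JJ) : unitInterval :=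
  Set.projIcc 0 1 zero_le_one ((j.1 : ℝ) / (j.2 + 1))

theorem tm_le {k : ℤ} (n : ℕ) (h : k ≤ 0) : tm (k, n) = 0 :=
  Set.projIcc_of_le_left _ (div_nonpos_of_nonpos_of_nonneg (by exact_mod_cast h) (by positivity))

theorem tm_ge {k : ℤ} {n : ℕ} (h : (n : ℤ) + 1 ≤ k) : tm (k, n) = 1 :=
  Set.projIcc_of_right_le _ ((one_le_div (by positivity)).2 (by exact_mod_cast h))

theorem asy_tm {g : JJ → unitInterval}
    (h1 : ∀ (k : ℤ) (n : ℕ), dist (tm (k, n)) (g (k, n)) ≤ 1 / (n + 1))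
    (h2 : ∀ (k : ℤ) (n : ℕ), k < 0 ∨ (n : ℤ) + 2 ≤ k → tm (k, n) = g (k, n)) : Asy tm g := by
  intro ε hε
  obtain ⟨N, hN⟩ := exists_nat_one_div_lt hε
  refine ((Set.finite_Icc (0 : ℤ) (N + 2)).prod (Set.finite_Icc 0 N)).subset ?_
  rintro ⟨k, n⟩ h
  have h3 : ε < dist (tm (k, n)) (g (k, n)) := h
  have h4 : n ≤ N := by
    by_contra h0
    have : (1 : ℝ) / (n + 1) ≤ 1 / (N + 1) :=
      Nat.one_div_le_one_div (not_le.1 h0).le
    linarith [h1 k n]
  have h5 : ¬(k < 0 ∨ (n : ℤ) + 2 ≤ k) := fun h0 => by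
    rw [h2 k n h0, dist_self] at h3
    exact hε.not_gt h3
  exact ⟨⟨by omega, by omega⟩, Nat.zero_le _, h4⟩

theorem dist_tm (j k : JJ) :
    dist (tm j) (tm k) ≤ |(j.1 : ℝ) / (j.2 + 1) - (k.1 : ℝ) / (k.2 + 1)| :=
  Set.abs_projIcc_sub_projIcc _

theorem asy_sh : Asy tm fun j => tm (j.1 + 1, j.2) := by
  refine asy_tm (fun k n => (dist_tm _ _).trans_eq ?_) fun k n h => ?_
  · push_cast
    rw [← sub_div, sub_add_cancel_left, abs_div, abs_neg, abs_one, abs_of_pos (by positivity)]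
  · rcases h with h | h
    · rw [tm_le n h.le, tm_le n (by omega)]
    · rw [tm_ge (by omega), tm_ge (by omega)]

theorem asy_up : Asy tm fun j => tm (j.1, j.2 + 1) := by
  have h2 : ∀ (k : ℤ) (n : ℕ), k < 0 ∨ (n : ℤ) + 2 ≤ k → tm (k, n) = tm (k, n + 1) := by
    rintro k n (h | h)
    · rw [tm_le n h.le, tm_le _ h.le]
    · rw [tm_ge (by omega), tm_ge (by push_cast; omega)]
  refine asy_tm (fun k n => ?_) h2
  by_cases h : k < 0 ∨ (n : ℤ) + 2 ≤ k
  · rw [h2 k n h, dist_self]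
    positivity
  · have h3 : (0 : ℝ) ≤ k := by exact_mod_cast (by omega : 0 ≤ k)
    have h4 : (k : ℝ) ≤ n + 2 := by exact_mod_cast (by omega : k ≤ n + 2)
    refine (dist_tm _ _).trans ?_
    push_cast
    have h5 : (k : ℝ) / (n + 1) - k / (n + 1 + 1) = k / (n + 2) * (1 / (n + 1)) := by
      field_simp
      ring
    rw [h5, abs_of_nonneg (by positivity)]
    exact mul_le_of_le_one_left (by positivity) ((div_le_one (by positivity)).2 h4)

theorem swindle {G : Type} [AddCommGroup G] (d : ∀ τ τ', Asy τ τ' → G)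
    (co : ∀ τ τ' τ'' h h' h'', d τ τ'' h'' = d τ τ' h + d τ' τ'' h')
    (inj : ∀ i : JJ → JJ, Function.Injective i → ∀ τ τ' h h',
      (∀ k ∉ Set.range i, τ k = τ' k) → d τ τ' h = d (τ ∘ i) (τ' ∘ i) h') :
    ∃ τ τ' h, τ (0, 0) = 0 ∧ τ' (0, 0) = 1 ∧ (∀ k ≠ (0, 0), τ k = τ' k) ∧ d τ τ' h = 0 := by
  let s : JJ → JJ := fun j => (j.1 + 1, j.2)
  let u : JJ → JJ := fun j => (j.1, j.2 + 1)
  let τ : JJ → unitInterval := fun j => if j.2 = 0 then tm j else tm (s j)
  have hs : Function.Injective s := fun a b h => by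
    simp only [s, Prod.mk.injEq] at h
    exact Prod.ext (by omega) h.2
  have hu : Function.Injective u := fun a b h => by
    simp only [u, Prod.mk.injEq] at h
    exact Prod.ext h.1 (by omega)
  have h1 : Asy tm (tm ∘ s) := asy_sh
  have h2 : Asy tm (tm ∘ u) := asy_up
  have h3 : Asy tm τ := fun ε hε => (h1 ε hε).subset fun j hj => by
    by_cases h : j.2 = 0
    · simp only [τ, Set.mem_ofPred_eq, if_pos h, dist_self] at hj
      exact absurd hj hε.not_gt
    · simp only [τ, Set.mem_ofPred_eq, if_neg h] at hj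
      exact hj
  have h4 : τ ∘ u = (tm ∘ u) ∘ s := funext fun j => by
    change (if j.2 + 1 = 0 then tm (u j) else tm (s (u j))) = tm (s (u j))
    rw [if_neg (Nat.succ_ne_zero j.2)]
  have h5 := h2.symm.trans (h1.trans (h2.comp hs))
  have e0 : d tm (tm ∘ u) h2 + d (tm ∘ u) tm h2.symm = 0 := by
    have h6 := co tm tm tm (h2.trans h2.symm) (h2.trans h2.symm) (h2.trans h2.symm)
    rw [← co _ _ _ _ _ (h2.trans h2.symm)]
    exact left_eq_add.1 h6
  have e1 := inj s hs (tm ∘ u) tm h2.symm (h2.symm.comp hs) fun k hk =>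
    (hk ⟨(k.1 - 1, k.2), by simp [s]⟩).elim
  have e2 := co _ _ _ h2 (h2.symm.trans h1) h1
  have e3 := co _ _ _ h5 (h2.symm.comp hs) (h2.symm.trans h1)
  have e4 := co _ _ _ h3 (h3.symm.trans h1) h1
  have e5 := inj u hu tm τ h3 (h3.comp hu) fun k hk => by
    refine (if_pos ?_).symm
    by_contra h0
    exact hk ⟨(k.1, k.2 - 1), Prod.ext rfl (by simp only [u]; omega)⟩
  have e6 : d (tm ∘ u) (τ ∘ u) (h3.comp hu) = d (tm ∘ u) ((tm ∘ u) ∘ s) h5 := by
    congr 1
  refine ⟨τ, tm ∘ s, h3.symm.trans h1, tm_le 0 le_rfl, tm_ge (k := 0 + 1) (n := 0) le_rfl,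
    fun k hk => ?_, ?_⟩
  · obtain ⟨k, n⟩ := k
    by_cases h : n = 0
    · subst h
      have h6 : k ≠ 0 := fun e => hk (by rw [e])
      change tm (k, 0) = tm (k + 1, 0)
      rcases lt_or_gt_of_ne h6 with h7 | h7
      · rw [tm_le 0 h7.le, tm_le 0 (by omega)]
      · rw [tm_ge (by omega), tm_ge (by omega)]
    · exact if_neg h
  · rw [e3, ← e1, e4, e5, e6, add_left_comm, e0, add_zero] at e2
    exact add_eq_left.1 e2

end Vale.Agent.P212H
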