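import Vale.Agent.P212H52.Fam

/-! Infinite amplifications along time functions. -/

set_option linter.unusedSectionVars false

namespace Vale.Agent.P212H

open Vale.Agent.P212 Vale.Agent.P212Z Filter Topology Metric
open ContinuousLinearMap hiding proj

/-- The unitary which identifies `l^2(JJ × ℕ)` with `l^2(ℕ)`. -/
noncomputable def uu : LP JJ →L[ℂ] L2 ℕ :=
  pushL2 (Denumerable.eqv (JJ × ℕ)) (Denumerable.eqv (JJ × ℕ)).injective

theorem uu_iso : adjoint uu ∘L uu = 1 := adjoint_pushL2_comp _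

theorem uu_onto : uu ∘L adjoint uu = 1 := by
  refine (pushL2_comp_adjoint _).trans ?_
  ext1 f
  exact lp.ext (funext fun k => proj_apply_mem _ ((Denumerable.eqv (JJ × ℕ)).surjective k))

/-- The isometries. -/
noncomputable def vv (j : JJ) : OpN := uu ∘L inc j

theorem star_vv (j : JJ) : star (vv j) = slice j ∘L adjoint uu := by
  rw [vv, star_eq_adjoint, adjoint_comp]
  rfl

theorem vv_vv (j k : JJ) : star (vv j) * vv k = slice j ∘L inc k := by
  rw [star_vv, mul_def, vv, comp_assoc, ← comp_assoc (adjoint uu), uu_iso]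
  rfl

theorem vv_self (j : JJ) : star (vv j) * vv j = 1 := by rw [vv_vv, slice_inc_self]

theorem vv_ne {j k : JJ} (h : j ≠ k) : star (vv j) * vv k = 0 := by rw [vv_vv, slice_inc_ne h]

theorem vv_ext {a b : OpN} (h : ∀ j, a * vv j = b * vv j) : a = b := by
  have h1 : a ∘L uu = b ∘L uu := inc_ext h
  have h2 : ∀ c : OpN, c = (c ∘L uu) ∘L adjoint uu := fun c => by
    rw [comp_assoc, uu_onto]
    rfl
  rw [h2 a, h1, ← h2]

theorem vv_ext' {a b : OpN} (h : ∀ j, star (vv j) * a = star (vv j) * b) : a = b :=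
  star_injective (vv_ext fun j => by simpa only [star_mul, star_star] using congrArg star (h j))

theorem exists_VV {i : JJ → JJ} (hi : Function.Injective i) :
    ∃ V : OpN, (∀ j, V * vv j = vv (i j)) ∧ star V * V = 1 ∧
      ∀ k ∉ Set.range i, star V * vv k = 0 := by
  have h0 : Function.Injective (Prod.map i (id : ℕ → ℕ)) := hi.prodMap Function.injective_id
  have h1 : ∀ j, pushL2 _ h0 ∘L inc j = inc (i j) := fun j => by
    have h2 : slice j ∘L adjoint (pushL2 _ h0) = slice (i j) := by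
      ext1 f
      refine lp.ext (funext fun n => ?_)
      rw [comp_apply, slice_apply, adjoint_pushL2_apply, slice_apply]
      rfl
    have h3 := congrArg adjoint h2
    rwa [adjoint_comp, adjoint_adjoint, adjoint_slice, adjoint_slice] at h3
  have h2 : ∀ j, cj uu (pushL2 _ h0) * vv j = vv (i j) := fun j => by
    rw [mul_def, vv, ← comp_assoc, cj_comp_iso uu_iso, comp_assoc, h1]
    rfl
  have h3 : ∀ j, star (vv j) * star (cj uu (pushL2 _ h0)) = star (vv (i j)) := fun j => by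
    rw [← star_mul, h2]
  refine ⟨_, h2, vv_ext fun k => vv_ext' fun j => ?_, fun k hk => vv_ext' fun j => ?_⟩
  · rw [mul_assoc, h2, ← mul_assoc, h3, one_mul]
    by_cases h : j = k
    · rw [h, vv_self, vv_self]
    · rw [vv_ne h, vv_ne (hi.ne h)]
  · rw [← mul_assoc, h3, mul_zero, vv_ne fun e => hk ⟨j, e⟩]

/-- The amplification of a family along a time function. -/
noncomputable def Ψ (τ : JJ → unitInterval) (m : unitInterval → OpN) : OpN :=
  cj uu (dg fun j => m (τ j))

theorem Ψ_vv (τ : JJ → unitInterval) {m : unitInterval → OpN} (h : Bdd m) (j : JJ) :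
    Ψ τ m * vv j = vv j * m (τ j) := by
  rw [mul_def, vv, Ψ, ← comp_assoc, cj_comp_iso uu_iso, comp_assoc, dg_inc (h.comp τ)]
  rfl

theorem vv_Ψ (τ : JJ → unitInterval) {m : unitInterval → OpN} (h : Bdd m) (j : JJ) :
    star (vv j) * Ψ τ m = m (τ j) * star (vv j) := by
  rw [star_vv, mul_def, Ψ, comp_assoc, adj_comp_cj uu_iso, ← comp_assoc, slice_dg (h.comp τ)]
  rfl

variable {A : Type} [NonUnitalCStarAlgebra A] {Y : Type}

theorem bdd_rho (ρ : unitInterval → A →⋆ₙₐ[ℂ] OpN) (a : A) : Bdd fun t => ρ t a :=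
  ⟨‖a‖, fun t => NonUnitalStarAlgHom.norm_apply_le (ρ t) a⟩

/-- The amplification of a family of representations. -/
noncomputable def Ψρ (τ : JJ → unitInterval) (ρ : unitInterval → A →⋆ₙₐ[ℂ] OpN) :
    A →⋆ₙₐ[ℂ] OpN where
  toFun a := Ψ τ fun t => ρ t a
  map_smul' c a := vv_ext fun j => by
    rw [MonoidHom.id_apply, smul_mul_assoc, Ψ_vv τ (bdd_rho ρ _), Ψ_vv τ (bdd_rho ρ _), map_smul,
      mul_smul_comm]
  map_zero' := vv_ext fun j => by rw [Ψ_vv τ (bdd_rho ρ _), map_zero, mul_zero, zero_mul]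
  map_add' a b := vv_ext fun j => by
    rw [add_mul, Ψ_vv τ (bdd_rho ρ _), Ψ_vv τ (bdd_rho ρ _), Ψ_vv τ (bdd_rho ρ _), map_add,
      mul_add]
  map_mul' a b := vv_ext fun j => by
    rw [mul_assoc, Ψ_vv τ (bdd_rho ρ _), Ψ_vv τ (bdd_rho ρ _), ← mul_assoc, Ψ_vv τ (bdd_rho ρ _),
      map_mul, mul_assoc]
  map_star' a := vv_ext fun j => by
    have h := congrArg star (vv_Ψ τ (bdd_rho ρ a) j)
    rw [star_mul, star_mul, star_star] at h
    rw [Ψ_vv τ (bdd_rho ρ _), h, map_star]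

theorem amp_fsum (F : Finset JJ) (a : JJ → OpN) :
    amp Y (∑ j ∈ F, a j) = ∑ j ∈ F, amp Y (a j) := by
  induction F using Finset.cons_induction with
  | empty => exact amp_zero
  | cons b s hb ih => rw [Finset.sum_cons, Finset.sum_cons, amp_add, ih]

theorem bessel (F : Finset JJ) (ξ : LP Y) :
    ∑ j ∈ F, ‖amp Y (star (vv j)) ξ‖ ^ 2 ≤ ‖ξ‖ ^ 2 := by
  set P : OpN := ∑ j ∈ F, vv j * star (vv j) with hP
  have h1 : IsStarProjection P := by
    refine ⟨?_, ?_⟩
    · rw [IsIdempotentElem, hP, Finset.sum_mul]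
      refine Finset.sum_congr rfl fun j hj => ?_
      rw [mul_assoc, Finset.mul_sum, Finset.sum_eq_single_of_mem j hj fun k _ hk => by
        rw [← mul_assoc, vv_ne hk.symm, zero_mul], ← mul_assoc (star _), vv_self, one_mul]
    · rw [IsSelfAdjoint, hP, star_sum]
      simp only [star_mul, star_star]
  have h2 : amp Y P = ∑ j ∈ F, amp Y (vv j) * amp Y (star (vv j)) := by
    rw [hP, amp_fsum]
    exact Finset.sum_congr rfl fun j _ => amp_mul _ _
  have h3 : ∀ j, ‖amp Y (star (vv j)) ξ‖ ^ 2 =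
      RCLike.re (inner ℂ ξ ((amp Y (vv j) * amp Y (star (vv j))) ξ)) := fun j => by
    rw [mul_apply_eq_comp, ← adjoint_inner_left, ← star_eq_adjoint, ← amp_star,
      inner_self_eq_norm_sq]
  calc _ = RCLike.re (inner ℂ ξ (amp Y P ξ)) := by
        rw [h2, sum_apply, inner_sum, map_sum]
        exact Finset.sum_congr rfl fun j _ => h3 j
    _ ≤ ‖ξ‖ * ‖amp Y P ξ‖ := re_inner_le_norm _ _
    _ ≤ ‖ξ‖ * (1 * ‖ξ‖) := mul_le_mul_of_nonneg_left
        ((amp Y P).le_of_opNorm_le ((norm_amp_le' _).trans h1.norm_le) _) (norm_nonneg _)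
    _ = _ := by ring

theorem norm_of_blocks {T : LP Y →L[ℂ] L2 ℕ} {K : JJ → LP Y →L[ℂ] L2 ℕ}
    (h : ∀ j, star (vv j) ∘L T = K j ∘L amp Y (star (vv j))) {ε : ℝ} (hε : 0 ≤ ε)
    (hK : ∀ j, ‖K j‖ ≤ ε) : ‖T‖ ≤ ε := by
  have h1 : ‖adjoint uu ∘L T‖ ≤ ε := by
    refine norm_le_of_slices _ hε fun F ξ => ?_
    calc _ ≤ ∑ j ∈ F, ε ^ 2 * ‖amp Y (star (vv j)) ξ‖ ^ 2 := Finset.sum_le_sum fun j _ => by
          have h2 : slice j ((adjoint uu ∘L T) ξ) = K j (amp Y (star (vv j)) ξ) := by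
            have h3 := congrArg (fun S : LP Y →L[ℂ] L2 ℕ => S ξ) (h j)
            rw [star_vv] at h3
            rw [star_vv]
            exact h3
          rw [h2, ← mul_pow]
          exact pow_le_pow_left₀ (norm_nonneg _) ((K j).le_of_opNorm_le (hK j) _) 2
      _ ≤ _ := by
          rw [← Finset.mul_sum, mul_pow]
          exact mul_le_mul_of_nonneg_left (bessel F ξ) (by positivity)
  have h2 : T = uu ∘L adjoint uu ∘L T := by
    rw [← comp_assoc, uu_onto]
    rfl
  rw [h2]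
  exact (opNorm_comp_le _ _).trans
    ((mul_le_of_le_one_left (norm_nonneg _) (norm_iso_le uu_iso)).trans h1)

theorem cpt_of_blocks {T : LP Y →L[ℂ] L2 ℕ} {K : JJ → LP Y →L[ℂ] L2 ℕ}
    (h : ∀ j, star (vv j) ∘L T = K j ∘L amp Y (star (vv j))) (hK : ∀ j, Cpt (K j))
    (h0 : ∀ ε > 0, {j | ε < ‖K j‖}.Finite) : Cpt T := by
  refine Cpt.of_approx fun ε hε => ⟨∑ j ∈ (h0 ε hε).toFinset, vv j ∘L K j ∘L amp Y (star (vv j)),
    Cpt.sum _ _ fun j _ => ((hK j).comp_right _).comp_left _, ?_⟩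
  refine norm_of_blocks (K := fun j => if j ∈ (h0 ε hε).toFinset then 0 else K j)
    (fun j => ?_) hε.le fun j => ?_
  · have h1 : ∀ k, star (vv j) ∘L vv k ∘L K k ∘L amp Y (star (vv k)) =
        (star (vv j) * vv k) ∘L K k ∘L amp Y (star (vv k)) := fun k => rfl
    rw [comp_sub, comp_finsetSum, h]
    simp only [h1]
    split_ifs with hj
    · rw [Finset.sum_eq_single_of_mem j hj fun k _ hk => by rw [vv_ne hk.symm, zero_comp],
        vv_self, zero_comp]
      exact sub_self _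
    · rw [Finset.sum_eq_zero fun k hk => by
        rw [vv_ne (show j ≠ k from fun e => hj (e ▸ hk)), zero_comp], sub_zero]
  · split_ifs with hj
    · exact norm_zero.trans_le hε.le
    · exact not_lt.1 fun e => hj ((h0 ε hε).mem_toFinset.2 e)

variable {π : Part A Y} {n : unitInterval → OpY Y} {τ τ' : JJ → unitInterval} {N : OpY Y}

theorem slice_qy (y : Y) (N : OpY Y) : slice y ∘L (qy y * N) = slice y ∘L N := by
  rw [mul_def, qy, ← comp_assoc, ← comp_assoc, slice_inc_self]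
  rfl

theorem row_key (hn : Row π n) (h : Asy τ τ')
    (h2 : ∀ j, amp Y (star (vv j)) * N = (n (τ j) - n (τ' j)) * amp Y (star (vv j))) (y : Y) :
    Cpt (slice y ∘L N) ∧ (π.s y = 0 → slice y ∘L N = 0) := by
  have h1 : ∀ j, star (vv j) ∘L (slice y ∘L N) =
      (slice y ∘L (qy y * n (τ j) - qy y * n (τ' j))) ∘L amp Y (star (vv j)) := fun j => by
    rw [← mul_sub, slice_qy, comp_assoc, ← mul_def, ← h2, mul_def, ← comp_assoc, ← comp_assoc,
      slice_amp]
  refine ⟨cpt_of_blocks h1 (fun j => (((hn y).1.2 _).sub ((hn y).1.2 _)).comp_left _)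
    fun ε hε => ?_, fun hy => norm_le_zero_iff.1 (norm_of_blocks h1 le_rfl fun j => ?_)⟩
  · obtain ⟨δ, hδ, h3⟩ := Metric.uniformContinuous_iff_le.1
      (CompactSpace.uniformContinuous_of_continuous (hn y).1.1) ε hε
    refine (h δ hδ).subset fun j hj => ?_
    by_contra h5
    have h4 : dist (τ j) (τ' j) ≤ δ := not_lt.1 h5
    refine (show ε < _ from hj).not_ge ?_
    refine (opNorm_comp_le _ _).trans
      ((mul_le_of_le_one_left (norm_nonneg _) (norm_slice_le y)).trans ?_)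
    rw [← dist_eq_norm]
    exact h3 h4
  · rw [(hn y).2 hy, (hn y).2 hy, sub_self, comp_zero, norm_zero]

theorem lcs_key (hn : Good π n) (h : Asy τ τ')
    (h1 : ∀ j, N * amp Y (vv j) = amp Y (vv j) * (n (τ j) - n (τ' j)))
    (h2 : ∀ j, amp Y (star (vv j)) * N = (n (τ j) - n (τ' j)) * amp Y (star (vv j))) :
    π.LCs N := by
  intro y
  have h3 := row_key hn.1 h h2 y
  have h4 := row_key (N := star N) hn.2 h (fun j => by
    rw [amp_star, ← star_mul, h1, star_mul, star_sub]) y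
  have h5 : N ∘L inc y = star (inc y ∘L slice y ∘L star N) ∘L inc y := by
    have h6 : inc y ∘L slice y ∘L star N = qy y * star N := rfl
    rw [h6, star_mul, star_star, star_qy, mul_def, qy, comp_assoc, comp_assoc, slice_inc_self]
    rfl
  rw [h5]
  exact ⟨h3.1, (h4.1.comp_left _).star.comp_right _, fun hy =>
    ⟨h3.2 hy, by rw [h4.2 hy, comp_zero, star_zero, zero_comp]⟩⟩

end Vale.Agent.P212H
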