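import Vale.Agent.P212Z.St
import Mathlib.Analysis.CStarAlgebra.Module.Defs
import Mathlib.Analysis.CStarAlgebra.ContinuousMap

/-! Kasparov modules over Hilbert C*-modules, homotopy of cycles, `KK_0(A, ℂ)` as the group of
cycles modulo homotopy, `KX_0(X)` and the coarse assembly map. -/

namespace Vale.Agent.P212T

open Vale.Agent.P212 Vale.Agent.P212Z Vale.Agent.P212Z.Kas ZeroAtInfty

/-- The scalar product. -/
def ip {k H : Type} [RCLike k] [NormedAddCommGroup H] [InnerProductSpace k H] (x y : H) : k :=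
  inner k x y

/-- The bounded operators. -/
abbrev Op (H K : Type) [NormedAddCommGroup H] [InnerProductSpace ℂ H] [NormedAddCommGroup K]
    [InnerProductSpace ℂ K] : Type := H →L[ℂ] K

section Module

variable (B : Type) {E : Type} [NonUnitalCStarAlgebra B] [PartialOrder B] [NormedAddCommGroup E]
  [NormedSpace ℂ E] [SMul B E] [CStarModule B E]

/-- `T` is adjointable, with adjoint `S`. -/
def IsAdj (T S : E →L[ℂ] E) : Prop := ∀ x y : E, inner B (T x) y = inner B x (S y)

/-- `T ∈ K(E)`: `T` is a norm limit of finite sums of the operators `θ_{x,y} z = ⟨y, z⟩ x`. -/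
def IsCpt (T : E →L[ℂ] E) : Prop :=
  ∀ ε : ℝ, 0 < ε → ∃ (n : ℕ) (x y : Fin n → E), ∀ z : E,
    ‖T z - ∑ i, inner B (y i) z • x i‖ ≤ ε * ‖z‖

variable (E) in
/-- `E` is countably generated. -/
def CountablyGen : Prop :=
  ∃ x : ℕ → E, Dense (Submodule.span ℂ {z : E | ∃ (b : B) (n : ℕ), z = b • x n} : Set E)

variable (E) in
/-- A Kasparov `(A, B)`-module on the Hilbert `B`-module `E`: `E` is countably generated, `γ` is
a grading operator, `φ` is a *-homomorphism into the even adjointable operators, `F` is odd with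
adjoint `F'`, and `(F^2 - 1) φ(a)`, `(F - F*) φ(a)` and `[F, φ(a)]` are in `K(E)`. -/
structure KMod (A : Type) [NonUnitalCStarAlgebra A] : Type where
  γ : E →L[ℂ] E
  φ : A →ₙₐ[ℂ] (E →L[ℂ] E)
  F : E →L[ℂ] E
  F' : E →L[ℂ] E
  complete : CompleteSpace E
  gen : CountablyGen B E
  γ_adj : IsAdj B γ γ
  γ_sq : γ * γ = 1
  φ_adj : ∀ a, IsAdj B (φ a) (φ (star a))
  F_adj : IsAdj B F F'
  even : ∀ a, γ * φ a = φ a * γ
  odd : γ * F = -(F * γ)
  sq : ∀ a, IsCpt B ((F * F - 1) * φ a)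
  sa : ∀ a, IsCpt B ((F - F') * φ a)
  comm : ∀ a, IsCpt B (F * φ a - φ a * F)

variable {B} {A H : Type} [NonUnitalCStarAlgebra A] [NormedAddCommGroup H]
  [InnerProductSpace ℂ H] [CompleteSpace H]

/-- `c` is the evaluation of `m` at the character `ev` of `B`: a linear map `π` identifies `H` with
`E ⊗_ev ℂ`, the completion of `E` for the form `ev ⟨x, y⟩`, and the operators of `c` are the
induced ones. -/
structure IsEval (m : KMod B E A) (ev : B → ℂ) (c : Fredholm A H) : Prop where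
  ex : ∃ π : E →ₗ[ℂ] H, DenseRange π ∧ (∀ x y : E, ip (π x) (π y) = ev (inner B x y)) ∧
    (∀ x, c.γ (π x) = π (m.γ x)) ∧ (∀ a x, c.ρ a (π x) = π (m.φ a x)) ∧
    ∀ x, c.F (π x) = π (m.F x)

/-- The evaluation of `m` at `ev` exists and is unique up to unitary equivalence. -/
def HasEval (m : KMod B E A) (ev : B → ℂ) : Prop :=
  (∃ (H : Type) (_ : NormedAddCommGroup H) (_ : InnerProductSpace ℂ H) (_ : CompleteSpace H)
    (c : Fredholm A H), IsEval m ev c) ∧
  ∀ (H K : Type) [NormedAddCommGroup H] [InnerProductSpace ℂ H] [CompleteSpace H]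
    [NormedAddCommGroup K] [InnerProductSpace ℂ K] [CompleteSpace K] (a : Fredholm A H)
    (b : Fredholm A K), IsEval m ev a → IsEval m ev b → UnitEq a b

variable (B)

/-- The two cycles are the evaluations at `ev 0` and `ev 1` of one Kasparov `(A, B)`-module. -/
inductive Joined (ev : unitInterval → B → ℂ) : Cyc A → Cyc A → Prop
  | mk {H K E : Type} [NormedAddCommGroup H] [InnerProductSpace ℂ H] [CompleteSpace H]
      [NormedAddCommGroup K] [InnerProductSpace ℂ K] [CompleteSpace K] [NormedAddCommGroup E]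
      [NormedSpace ℂ E] [SMul B E] [CStarModule B E]
      (a : Fredholm A H) (b : Fredholm A K) (m : KMod B E A) :
      IsEval m (ev 0) a → IsEval m (ev 1) b → Joined ev ⟨H, a⟩ ⟨K, b⟩

variable (A) in
/-- Every Kasparov `(A, B)`-module has a well defined evaluation at `ev`. -/
def AllEval (ev : B → ℂ) : Prop :=
  ∀ (E : Type) [NormedAddCommGroup E] [NormedSpace ℂ E] [SMul B E] [CStarModule B E]
    (m : KMod B E A), HasEval m ev

end Module

variable {A B : Type} [NonUnitalCStarAlgebra A] [NonUnitalCStarAlgebra B]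

open scoped ComplexOrder in
/-- Homotopy of cycles: `a` and `b` are the evaluations at `0` and `1` of a Kasparov
`(A, C([0,1]))`-module. -/
def Htpy : Cyc A → Cyc A → Prop := Joined C(unitInterval, ℂ) fun t f => f t

open scoped ComplexOrder in
variable (A) in
/-- The evaluations of a Kasparov `(A, C([0,1]))`-module exist and are unique up to unitary
equivalence. -/
def EvalWellDefined : Prop := ∀ t : unitInterval, AllEval C(unitInterval, ℂ) A fun f => f t

variable (A) in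
/-- Kasparov's group `KK_0(A, ℂ)`: cycles modulo homotopy, with the direct sum as addition. -/
abbrev KK : Type 1 := Pres (Htpy (A := A)) Cyc.IsSum

open scoped ComplexOrder in
theorem comap_htpy (ψ : B →⋆ₙₐ[ℂ] A) :
    ∀ a b : Cyc A, Htpy a b → Htpy (a.comap ψ) (b.comap ψ) := by
  rintro _ _ ⟨a, b, m, ⟨π, h⟩, π', h'⟩
  exact .mk (a.comap ψ) (b.comap ψ)
    ⟨m.γ, m.φ.comp (ψ : B →ₙₐ[ℂ] A), m.F, m.F', m.complete, m.gen, m.γ_adj, m.γ_sq,
      fun a => (congrArg (fun z => IsAdj _ (m.φ (ψ a)) (m.φ z)) (map_star ψ a)).mpr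
        (m.φ_adj (ψ a)),
      m.F_adj, fun a => m.even (ψ a), m.odd, fun a => m.sq (ψ a), fun a => m.sa (ψ a),
      fun a => m.comm (ψ a)⟩
    ⟨π, h.1, h.2.1, h.2.2.1, fun x => h.2.2.2.1 (ψ x), h.2.2.2.2⟩
    ⟨π', h'.1, h'.2.1, h'.2.2.1, fun x => h'.2.2.2.1 (ψ x), h'.2.2.2.2⟩

/-- Contravariant functoriality of `KK_0(A, ℂ)` in `A`. -/
noncomputable def KK.comap (ψ : B →⋆ₙₐ[ℂ] A) : KK A →+ KK B :=
  Pres.map (Cyc.comap ψ) (comap_htpy ψ) (Cyc.comap_isSum ψ)

/-- The coarse K-homology group `KX_0(X) = lim_r KK_0(C_0(P_r(X)), ℂ)`. -/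
def KX0 (X : Type) [MetricSpace X] [BddGeometry X] : Type 1 :=
  AddCommGroup.DirectLimit (fun r : ℝ => KK C₀(Rips X r, ℂ))
    (fun _ _ h => KK.comap (c0Comap (ripsInclCo h)))

noncomputable instance kxGroup (X : Type) [MetricSpace X] [BddGeometry X] :
    AddCommGroup (KX0 X) :=
  AddCommGroup.DirectLimit.addCommGroup _ _

/-- The class in `KX_0(X)` of a cycle over `C_0(P_r(X))`. -/
noncomputable def KX0.cls {X : Type} [MetricSpace X] [BddGeometry X] (r : ℝ)
    (c : Cyc C₀(Rips X r, ℂ)) : KX0 X :=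
  limOf (G := fun r : ℝ => KK C₀(Rips X r, ℂ))
    (fun _ _ h => KK.comap (c0Comap (ripsInclCo h))) r (Pres.of _ _ c)

section Amp

variable {X H K E : Type} [NormedAddCommGroup H] [InnerProductSpace ℂ H] [CompleteSpace H]
  [NormedAddCommGroup K] [InnerProductSpace ℂ K] [CompleteSpace K]
  [NormedAddCommGroup E] [InnerProductSpace ℂ E] [CompleteSpace E]

/-- The map `T` on `H = l^2(X) ⊗ l^2(ℕ)` has the matrix entries `M x y`, which are maps of
`K = l^2(ℕ)`. -/
def Entries (b : HilbertBasis (X × ℕ) ℂ H) (e : HilbertBasis ℕ ℂ K) (T : H → H)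
    (M : X → X → K → K) : Prop :=
  ∀ x y m n, (ip (b (x, m)) (T (b (y, n))) : ℂ) = ip (e m) (M x y (e n))

open Classical in
/-- The operators on `l^2(X) ⊗ l^2(ℕ)` attached to a Fredholm module `c = (E, γ, ρ, F)`, the
square roots `φ x` of a partition of unity and an isometry `w : E → l^2(ℕ)`: `2 p₀` and `2 p₁`
have the entries `w ρ(φ_x φ_y) (1 ± γ) w*`, and `Φ = 1 ⊗ w F w*`. -/
structure IsAmp (b : HilbertBasis (X × ℕ) ℂ H) (e : HilbertBasis ℕ ℂ K) (φ : X → B)
    (c : Fredholm B E) (w : Op E K) (p₀ p₁ Φ : H →L[ℂ] H) : Prop where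
  iso : ∀ ξ, adj w (w ξ) = ξ
  even : Entries b e (fun ξ => p₀ ξ + p₀ ξ) fun x y ξ =>
    w (c.ρ (φ x * φ y) (adj w ξ + c.γ (adj w ξ)))
  odd : Entries b e (fun ξ => p₁ ξ + p₁ ξ) fun x y ξ =>
    w (c.ρ (φ x * φ y) (adj w ξ - c.γ (adj w ξ)))
  op : Entries b e Φ fun x y ξ => if x = y then w (c.F (adj w ξ)) else 0

/-- `z c` is the index of the finite propagation operator `p₁ Φ p₀`, that is, of
`∑_x ρ(φ_x) F ρ(φ_x)`, for every Fredholm module `c = (E, γ, ρ, F)` over `B`. -/
def IndexOn (b : HilbertBasis (X × ℕ) ℂ H) (i : (H →L[ℂ] H) → A) (B : Type)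
    [NonUnitalCStarAlgebra B] (φ : X → B) (z : Cyc B → KC A) : Prop :=
  ∀ (E K : Type) [NormedAddCommGroup E] [InnerProductSpace ℂ E] [CompleteSpace E]
    [NormedAddCommGroup K] [InnerProductSpace ℂ K] [CompleteSpace K] (e : HilbertBasis ℕ ℂ K)
    (c : Fredholm B E), (∃ w p₀ p₁ Φ, IsAmp b e φ c w p₀ p₁ Φ) ∧
    ∀ w p₀ p₁ Φ, IsAmp b e φ c w p₀ p₁ Φ → IsIndex i p₀ p₁ Φ (z ⟨E, c⟩)

end Amp

variable {X : Type} [MetricSpace X] [BddGeometry X]

/-- At every scale `r`, the map `c ↦ μ [c]` on the cycles over `C_0(P_r(X))` satisfies the index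
formula `P` for `φ_x = √t_x`, where the `t_x` are the barycentric coordinates. -/
def AtAllScales {K : Type}
    (P : ∀ (B : Type) [NonUnitalCStarAlgebra B], (X → B) → (Cyc B → K) → Prop)
    (μ : KX0 X → K) : Prop :=
  ∀ r : ℝ, P C₀(Rips X r, ℂ) (bary r) fun c => μ (KX0.cls r c)

/-- `μ` is the coarse assembly map for the completion `i : ℂ[X] → A`. -/
def IsAssembly {H : Type} [NormedAddCommGroup H] [InnerProductSpace ℂ H] [CompleteSpace H]
    (b : HilbertBasis (X × ℕ) ℂ H) (i : (H →L[ℂ] H) → A) (μ : KX0 X →+ KC A) : Prop :=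
  AtAllScales (IndexOn b i) μ

end Vale.Agent.P212T
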