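import Vale.Agent.P212H52.Top
import Vale.Agent.P212H52.St

/-! The statement over the short definitions. -/

set_option linter.unusedSectionVars false

namespace Vale.Agent.P212T

open Vale.Agent.P212 Vale.Agent.P212.H268 Vale.Agent.P212Z ZeroAtInfty
open scoped ComplexOrder

section Conv

variable {A E H : Type} [NonUnitalCStarAlgebra A] [NormedAddCommGroup E] [NormedSpace ℂ E]
  [SMul C(unitInterval, ℂ) E] [CStarModule C(unitInterval, ℂ) E] [NormedAddCommGroup H]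
  [InnerProductSpace ℂ H] [CompleteSpace H]

/-- The same module. -/
def KMod.old (m : KMod C(unitInterval, ℂ) E A) : P212H.KMod P212H.CI E A :=
  ⟨m.γ, m.φ, m.F, m.F', m.complete, m.gen, m.γ_adj, m.γ_sq, m.φ_adj, m.F_adj, m.even, m.odd, m.sq,
    m.sa, m.comm⟩

/-- The same module. -/
def KMod.new (m : P212H.KMod P212H.CI E A) : KMod C(unitInterval, ℂ) E A :=
  ⟨m.γ, m.φ, m.F, m.F', m.complete, m.gen, m.γ_adj, m.γ_sq, m.φ_adj, m.F_adj, m.even, m.odd, m.sq,
    m.sa, m.comm⟩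

theorem isEval_iff (m : KMod C(unitInterval, ℂ) E A) (t : unitInterval) (c : Kas.Fredholm A H) :
    IsEval m (fun f => f t) c ↔ ∃ π, P212H.IsEval m.old t c π :=
  ⟨fun ⟨π, h⟩ => ⟨π, h.1, h.2.1, h.2.2.1, h.2.2.2.1, h.2.2.2.2⟩,
    fun ⟨π, h⟩ => ⟨π, h.dense, h.inn, h.γ, h.ρ, h.F⟩⟩

theorem to_old {a b : Kas.Cyc A} (h : Htpy a b) : P212H.Htpy a b := by
  obtain ⟨a, b, m, h0, h1⟩ := h
  exact .mk a b ⟨_, _, _, _, _, m.old, (isEval_iff m 0 a).1 h0, (isEval_iff m 1 b).1 h1⟩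

theorem of_old {a b : Kas.Cyc A} (h : P212H.Htpy a b) : Htpy a b := by
  obtain ⟨a, b, E, _, _, _, _, m, h0, h1⟩ := h
  exact .mk a b (KMod.new m) ((isEval_iff _ 0 a).2 h0) ((isEval_iff _ 1 b).2 h1)

theorem evalWD (h : P212H.EvalWellDefined A) : EvalWellDefined A := by
  refine fun t E _ _ _ _ m => ⟨?_, fun H K _ _ _ _ _ _ a b ha hb => ?_⟩
  · obtain ⟨H, _, _, _, c, h1⟩ := (h E m.old t).1
    exact ⟨H, _, _, _, c, (isEval_iff m t c).2 h1⟩
  · obtain ⟨π, h1⟩ := (isEval_iff m t a).1 ha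
    obtain ⟨π', h2⟩ := (isEval_iff m t b).1 hb
    exact (h E m.old t).2 H K a b π π' h1 h2

end Conv

section Hom

variable {M Q B : Type} [Ring M] [Algebra ℂ M] [Ring Q] [NormedRing B] [NormedAlgebra ℂ B]
  [CompleteSpace B] {R : Rel M Q B} {A : Type} [NonUnitalCStarAlgebra A] {Y Θ : Type}

/-- The local index map on the cycles modulo homotopy. -/
noncomputable def homH (hI : P212H.HInv) (C : Ctx R A Y Θ) : KK A →+ K0 B :=
  Pres.lift (fun c => C.hom (P212Z.KK.cls (toOld c)))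
    (fun a b h => by rw [P212H.hom_cyc, P212H.hom_cyc]; exact hI.out C a b (to_old h))
    (fun a b c h => by rw [cls_sum a b c h, map_add])

theorem homH_of (hI : P212H.HInv) (C : Ctx R A Y Θ) (c : Kas.Cyc A) :
    homH hI C (Pres.of _ _ c) = C.hom (P212Z.KK.cls (toOld c)) := Pres.lift_of _ _ _ c

theorem comap_of {A' : Type} [NonUnitalCStarAlgebra A'] (φ : A →⋆ₙₐ[ℂ] A') (c : Kas.Cyc A') :
    KK.comap φ (Pres.of _ _ c) = Pres.of _ _ (c.comap φ) := Pres.map_of _ _ _ c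

theorem homH_comap (hI : P212H.HInv) (C : Ctx R A Y Θ) {A' : Type} [NonUnitalCStarAlgebra A']
    (φ : A →⋆ₙₐ[ℂ] A') (c : Kas.Cyc A') :
    homH hI C (KK.comap φ (Pres.of _ _ c)) =
      C.hom (P212Z.KK.comap φ (P212Z.KK.cls (toOld c))) := by
  rw [comap_of, homH_of, P212Z.KK.comap_cls]
  rfl

end Hom

section Mu

variable {X A : Type} [MetricSpace X] [BddGeometry X] [NonUnitalCStarAlgebra A]

theorem KX0.hom_ext {G : Type*} [AddCommGroup G] {f g : KX0 X →+ G}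
    (h : ∀ r c, f (KX0.cls r c) = g (KX0.cls r c)) : f = g :=
  AddCommGroup.DirectLimit.hom_ext _ fun r => Pres.hom_ext fun c => h r c

variable [Nonempty X] {i : BX X → A} (hI : P212H.HInv) (hi : StarHomOn (IsRoe (gX X)) i)

theorem muH_compat {r s : ℝ} (h : r ≤ s) (x : KK C₀(Rips X r, ℂ)) :
    homH hI (muCtx hi s) (KK.comap (c0Comap (ripsInclCo h)) x) = homH hI (muCtx hi r) x := by
  have h1 : (homH hI (muCtx hi s)).comp (KK.comap (c0Comap (ripsInclCo h))) =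
      homH hI (muCtx hi r) := Pres.hom_ext fun c => by
    rw [AddMonoidHom.comp_apply, homH_comap, homH_of]
    exact mu_compat hi h _
  exact DFunLike.congr_fun h1 x

/-- The assembly map with values in `K_0(A^+)`. -/
noncomputable def muH0 : KX0 X →+ K0 (Unitization ℂ A) :=
  AddCommGroup.DirectLimit.lift _ _ _ (fun r => homH hI (muCtx hi r))
    (fun _ _ h x => muH_compat hI hi h x)

theorem muH0_cls (r : ℝ) (c : Kas.Cyc C₀(Rips X r, ℂ)) :
    muH0 hI hi (KX0.cls r c) = mu0 hi (P212Z.KX0.cls r (toOld c)) := by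
  obtain ⟨w, hw⟩ := (toOld c).M.exists_w
  rw [mu0_cls hi r _ hw, ← (muCtx hi r).hom_cls _ hw, ← homH_of hI]
  exact AddCommGroup.DirectLimit.lift_of _ _ _ _ _

theorem muH0_mem (x : KX0 X) : toKZ _ (muH0 hI hi x) ∈ KCStar A := by
  have h1 : (KZero.map (Unitization.fstHom ℂ A : Unitization ℂ A →+* ℂ)).comp
      ((toKZ _).comp (muH0 hI hi)) = 0 := by
    refine KX0.hom_ext fun r c => ?_
    rw [AddMonoidHom.comp_apply, AddMonoidHom.comp_apply, muH0_cls]
    exact mu0_mem hi _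
  exact DFunLike.congr_fun h1 x

/-- The assembly map. -/
noncomputable def muH : KX0 X →+ KCStar A :=
  ((toKZ _).comp (muH0 hI hi)).codRestrict _ (muH0_mem hI hi)

theorem muH_cls (r : ℝ) (c : Kas.Cyc C₀(Rips X r, ℂ)) :
    muH hI hi (KX0.cls r c) = mu hi (P212Z.KX0.cls r (toOld c)) :=
  Subtype.ext (congrArg (toKZ _) (muH0_cls hI hi r c))

end Mu

theorem directed_KKH (X : Type) [MetricSpace X] [BddGeometry X] :
    DirectedSystem (fun r : ℝ => KK C₀(Rips X r, ℂ))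
      (fun _ _ h => KK.comap (c0Comap (ripsInclCo (X := X) h))) where
  map_self i x := by
    have h : KK.comap (c0Comap (ripsInclCo (X := X) (le_refl i))) = AddMonoidHom.id _ :=
      Pres.hom_ext fun c => comap_of _ c
    exact DFunLike.congr_fun h x
  map_map k j i hij hjk x := by
    have h : (KK.comap (c0Comap (ripsInclCo (X := X) hjk))).comp
        (KK.comap (c0Comap (ripsInclCo (X := X) hij))) =
        KK.comap (c0Comap (ripsInclCo (X := X) (hij.trans hjk))) := Pres.hom_ext fun c => by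
      rw [AddMonoidHom.comp_apply, comap_of, comap_of, comap_of]
      rfl
    exact DFunLike.congr_fun h x

theorem indepH (hI : P212H.HInv) (τ : Tower) :
    LinearIndependent ℤ fun α : ℕ → Bool => KX0.cls 2 (ofOld (wit τ (seg α))) := by
  refine linearIndependent_iff'.2 fun T c h => ?_
  have := directed_KKH (XT τ)
  have h1 : AddCommGroup.DirectLimit.of (fun r : ℝ => KK C₀(Rips (XT τ) r, ℂ))
      (fun _ _ h => KK.comap (c0Comap (ripsInclCo h))) 2
      (∑ α ∈ T, c α • Pres.of _ _ (ofOld (wit τ (seg α)))) = 0 := by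
    rw [map_sum]
    simp only [map_zsmul]
    exact h
  obtain ⟨s, hs, h2⟩ := AddCommGroup.DirectLimit.of.zero_exact _ _ h1
  have hs1 : s ≤ ((⌈s⌉₊ : ℕ) : ℝ) := Nat.le_ceil s
  have h3 := (directed_KKH (XT τ)).map_map hs hs1
    (∑ α ∈ T, c α • Pres.of _ _ (ofOld (wit τ (seg α))))
  rw [h2, map_zero] at h3
  have h4 := congrArg (homH hI (lamCtx (XT τ) (⌈s⌉₊ : ℕ))) h3
  rw [map_zero, map_sum, map_sum] at h4
  have h5 : ∀ I, homH hI (lamCtx (XT τ) (⌈s⌉₊ : ℕ)) (KK.comap (c0Comap (ripsInclCo (hs.trans hs1)))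
      (Pres.of _ _ (ofOld (wit τ I)))) = -yC τ (hs.trans hs1) (phiB (locSys (XT τ) _)) I :=
    fun I => (homH_comap hI _ _ _).trans (lam_wit τ I _)
  simp only [map_zsmul, h5, smul_neg, Finset.sum_neg_distrib, zero_eq_neg] at h4
  exact lin_indep ⌈s⌉₊ (hs.trans hs1) (sysB _ _) (phiB (locSys _ _)) (phiB_ev _) (phiB_aug _)
    T c h4

section Amp

variable {B X H K E : Type} [NonUnitalCStarAlgebra B]
  [NormedAddCommGroup H] [InnerProductSpace ℂ H] [CompleteSpace H]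
  [NormedAddCommGroup K] [InnerProductSpace ℂ K] [CompleteSpace K]
  [NormedAddCommGroup E] [InnerProductSpace ℂ E] [CompleteSpace E]
  {b : HilbertBasis (X × ℕ) ℂ H} {e : HilbertBasis ℕ ℂ K}

theorem entries_half {p : H →L[ℂ] H} {w : E →L[ℂ] K} {M : X → X → E →L[ℂ] E} {g : E →L[ℂ] E} :
    (Entries b e (fun ξ => p ξ + p ξ) fun x y ξ => w (M x y (g (Kas.adj w ξ)))) ↔
      Kas.HasEntries b e p fun x y => w ∘L (M x y * ((1 / 2 : ℂ) • g)) ∘L Kas.adj w := by
  refine forall₄_congr fun x y m n => ?_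
  change inner ℂ (b (x, m)) (p (b (y, n)) + p (b (y, n))) =
      inner ℂ (e m) (w (M x y (g (Kas.adj w (e n))))) ↔
    inner ℂ (b (x, m)) (p (b (y, n))) =
      inner ℂ (e m) (w (M x y ((1 / 2 : ℂ) • g (Kas.adj w (e n)))))
  rw [inner_add_right, map_smul, map_smul, inner_smul_right]
  constructor
  · intro h
    linear_combination (1 / 2 : ℂ) * h
  · intro h
    linear_combination 2 * h

theorem isAmp_iff {φ : X → B} {c : Kas.Fredholm B E} {w : E →L[ℂ] K} {p₀ p₁ Φ : H →L[ℂ] H} :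
    IsAmp b e φ c w p₀ p₁ Φ ↔ Kas.IsAmplification b e φ c w p₀ p₁ Φ := by
  classical
  have h1 : ∀ x y : X, ∀ ξ, (if x = y then w ∘L c.F ∘L Kas.adj w else 0) ξ =
      if x = y then w (c.F (Kas.adj w ξ)) else 0 := fun x y ξ => by
    split_ifs <;> rfl
  constructor
  · intro h
    exact ⟨ContinuousLinearMap.ext h.iso, (entries_half (g := 1 + c.γ)).1 h.even,
      (entries_half (g := 1 - c.γ)).1 h.odd, fun x y m n =>
        (h.op x y m n).trans (congrArg (inner ℂ (e m)) (h1 x y (e n)).symm)⟩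
  · intro h
    exact ⟨fun ξ => DFunLike.congr_fun h.iso ξ, (entries_half (g := 1 + c.γ)).2 h.even,
      (entries_half (g := 1 - c.γ)).2 h.odd, fun x y m n =>
        (h.op x y m n).trans (congrArg (inner ℂ (e m)) (h1 x y (e n)))⟩

end Amp

section Main

variable {X H A : Type} [MetricSpace X] [BddGeometry X] [NormedAddCommGroup H]
  [InnerProductSpace ℂ H] [CompleteSpace H] [NonUnitalCStarAlgebra A]
  {b : HilbertBasis (X × ℕ) ℂ H} {i : (H →L[ℂ] H) → A}

theorem isAssembly_congr {μ : KX0 X →+ KC A} {ν : Kas.KX0 X →+ KC A} (h : Kas.IsAssembly b i ν)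
    (e : ∀ r c, μ (KX0.cls r c) = ν (Kas.KX0.cls r c)) : IsAssembly b i μ := by
  intro r E K _ _ _ _ _ _ e' c
  refine ⟨?_, fun w p₀ p₁ Φ hw => ?_⟩
  · obtain ⟨w, p₀, p₁, Φ, hw⟩ := (h r E K e' c).1
    exact ⟨w, p₀, p₁, Φ, isAmp_iff.2 hw⟩
  · change IsIndex i p₀ p₁ Φ (μ (KX0.cls r ⟨E, c⟩))
    rw [e]
    exact (h r E K e' c).2 w p₀ p₁ Φ (isAmp_iff.1 hw)

theorem assembly_unique {μ μ' : KX0 X →+ KC A} (h : IsAssembly b i μ)
    (h' : IsAssembly b i μ') : μ = μ' := by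
  refine KX0.hom_ext fun r c => ?_
  obtain ⟨E, c⟩ := c
  obtain ⟨w, p₀, p₁, Φ, hw⟩ := (h r E _ (stdB ℕ) c).1
  exact ((h r E _ (stdB ℕ) c).2 w p₀ p₁ Φ hw).unique ((h' r E _ (stdB ℕ) c).2 w p₀ p₁ Φ hw)

end Main

theorem top : (∀ (A : Type) [NonUnitalCStarAlgebra A], EvalWellDefined A ∧
      ∀ a b : Kas.Cyc A, a.Sim b → Htpy a b) ∧
    ∃ (X : Type) (_ : MetricSpace X) (_ : BddGeometry X) (_ : UnifDiscrete X),
    (∃ (H A : Type) (_ : NormedAddCommGroup H) (_ : InnerProductSpace ℂ H)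
      (_ : CompleteSpace H) (_ : NonUnitalCStarAlgebra A) (b : HilbertBasis (X × ℕ) ℂ H)
      (i : (H →L[ℂ] H) → A), IsMaxRoe b i) ∧
    (∃ (H A : Type) (_ : NormedAddCommGroup H) (_ : InnerProductSpace ℂ H)
      (_ : CompleteSpace H) (_ : NonUnitalCStarAlgebra A) (b : HilbertBasis (X × ℕ) ℂ H)
      (i : (H →L[ℂ] H) → A), IsReducedRoe b i) ∧
    ∀ (H A : Type) [NormedAddCommGroup H] [InnerProductSpace ℂ H] [CompleteSpace H]
      [NonUnitalCStarAlgebra A] (b : HilbertBasis (X × ℕ) ℂ H) (i : (H →L[ℂ] H) → A),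
      IsMaxRoe b i ∨ IsReducedRoe b i →
      ∃ μ : KX0 X →+ KC A, IsAssembly b i μ ∧
        (∀ μ', IsAssembly b i μ' → μ' = μ) ∧ ¬ RatInj μ ∧ BigKer μ := by
  refine ⟨fun A _ => ⟨evalWD (P212H.top.1 A).1, fun a b h => of_old ((P212H.top.1 A).2 a b h)⟩, ?_⟩
  have hI : P212H.HInv :=
    P212H.hinv P212H58.eval (P212H60.fam P212H26.stab) @P212H.swindleRow
  obtain ⟨τ⟩ := exists_tower
  refine ⟨XT τ, inferInstance, inferInstance, inferInstance,
    ⟨_, _, _, _, inferInstance, inferInstance, _, _, isMaxRoe_model⟩,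
    ⟨_, _, _, _, inferInstance, inferInstance, _, H35.redF (XT τ), H35.exists_reduced (XT τ)⟩,
    fun H A _ _ _ _ b i h => ?_⟩
  have hi := cpl_of (h.elim isRoeCompletion_of_isMaxRoe isRoeCompletion_of_isReducedRoe)
  have h1 : IsAssembly b i (muH hI hi.hom) :=
    isAssembly_congr (isAssembly_of (isAssembly_mu hi.hom)) fun r c =>
      (muH_cls hI hi.hom r c).trans (congrArg (mu hi.hom) (kxTo_cls r c)).symm
  obtain ⟨ι, hι⟩ := exists_inj_real
  have h3 : LinearIndependent ℤ fun a => KX0.cls 2 (ofOld (wit τ (seg (ι a)))) :=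
    (indepH hI τ).comp ι hι
  have h4 : ∀ a, muH hI hi.hom (KX0.cls 2 (ofOld (wit τ (seg (ι a))))) = 0 := fun a =>
    (muH_cls hI hi.hom 2 _).trans (mu_wit τ _ hi)
  refine ⟨_, h1, fun μ' h' => assembly_unique h' h1, not_inj_rat _ _ (h4 0) fun n hn => ?_, _,
    h3, h4⟩
  exact linearIndependent_iff'.1 h3 {0} (fun _ => n) (by rw [Finset.sum_singleton]; exact hn) 0
    (Finset.mem_singleton_self _)

end Vale.Agent.P212T
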