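import Vale.Agent.P212Z.St
import Mathlib.Analysis.CStarAlgebra.Module.Defs
import Mathlib.Analysis.CStarAlgebra.ContinuousMap

/-! Kasparov modules over Hilbert C*-modules, homotopy of cycles, `KK_0(A, ℂ)` as the group of
cycles modulo homotopy, `KX_0(X)` and the coarse assembly map. -/

namespace Vale.Agent.P212H

open Vale.Agent.P212 Vale.Agent.P212Z Vale.Agent.P212Z.Kas ZeroAtInfty
open scoped ComplexOrder

section Module

variable (B : Type) {E : Type} [NonUnitalCStarAlgebra B] [PartialOrder B] [NormedAddCommGroup E]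
  [NormedSpace ℂ E] [SMul B E] [CStarModule B E]

/-- `T` is adjointable, with adjoint `S`. -/
def IsAdj (T S : E →L[ℂ] E) : Prop := ∀ x y : E, inner B (T x) y = inner B x (S y)

/-- `T ∈ K(E)`: `T` is a norm limit of finite sums of the operators `θ_{x,y} z = ⟨y, z⟩ x`. -/
def IsCpt (T : E →L[ℂ] E) : Prop :=
  ∀ ε : ℝ, 0 < ε → ∃ (n : ℕ) (x y : Fin n → E), ∀ z : E,
    ‖T z - ∑ i, inner B (y i) z • x i‖ ≤ ε * ‖z‖

variable (E) in
/-- `E` is countably generated. -/
def CountablyGen : Prop :=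
  ∃ x : ℕ → E, Dense (Submodule.span ℂ {z : E | ∃ (b : B) (n : ℕ), z = b • x n} : Set E)

variable (E) in
/-- A Kasparov `(A, B)`-module on the Hilbert `B`-module `E`: `E` is countably generated, `γ` is
a grading operator, `φ` is a *-homomorphism into the even adjointable operators, `F` is odd with
adjoint `F'`, and `(F^2 - 1) φ(a)`, `(F - F*) φ(a)` and `[F, φ(a)]` are in `K(E)`. -/
structure KMod (A : Type) [NonUnitalCStarAlgebra A] : Type where
  γ : E →L[ℂ] E
  φ : A →ₙₐ[ℂ] (E →L[ℂ] E)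
  F : E →L[ℂ] E
  F' : E →L[ℂ] E
  complete : CompleteSpace E
  gen : CountablyGen B E
  γ_adj : IsAdj B γ γ
  γ_sq : γ * γ = 1
  φ_adj : ∀ a, IsAdj B (φ a) (φ (star a))
  F_adj : IsAdj B F F'
  even : ∀ a, γ * φ a = φ a * γ
  odd : γ * F = -(F * γ)
  sq : ∀ a, IsCpt B ((F * F - 1) * φ a)
  sa : ∀ a, IsCpt B ((F - F') * φ a)
  comm : ∀ a, IsCpt B (F * φ a - φ a * F)

end Module

/-- The C*-algebra `C([0,1])`. -/
abbrev CI : Type := C(unitInterval, ℂ)

section Eval

variable {A E H K : Type} [NonUnitalCStarAlgebra A] [NormedAddCommGroup E] [NormedSpace ℂ E]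
  [SMul CI E] [CStarModule CI E] [NormedAddCommGroup H] [InnerProductSpace ℂ H] [CompleteSpace H]
  [NormedAddCommGroup K] [InnerProductSpace ℂ K] [CompleteSpace K]

/-- `c` is the evaluation of `m` at `t`: `x ↦ π x` identifies `H` with `E ⊗_{ev_t} ℂ`, the
completion of `E` for the form `⟨x, y⟩(t)`, and the operators of `c` are the induced ones. -/
structure IsEval (m : KMod CI E A) (t : unitInterval) (c : Fredholm A H) (π : E →ₗ[ℂ] H) :
    Prop where
  dense : DenseRange π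
  inn : ∀ x y : E, inner ℂ (π x) (π y) = inner CI x y t
  γ : ∀ x, c.γ (π x) = π (m.γ x)
  ρ : ∀ a x, c.ρ a (π x) = π (m.φ a x)
  F : ∀ x, c.F (π x) = π (m.F x)

/-- Homotopy: `a` and `b` are the evaluations at `0` and `1` of a Kasparov
`(A, C([0,1]))`-module. -/
def Homotopic (a : Fredholm A H) (b : Fredholm A K) : Prop :=
  ∃ (E : Type) (_ : NormedAddCommGroup E) (_ : NormedSpace ℂ E) (_ : SMul CI E)
    (_ : CStarModule CI E) (m : KMod CI E A), (∃ π, IsEval m 0 a π) ∧ ∃ π, IsEval m 1 b π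

/-- The pull back of a Kasparov module. -/
def KMod.comap {A' : Type} [NonUnitalCStarAlgebra A'] (ψ : A' →⋆ₙₐ[ℂ] A) (m : KMod CI E A) :
    KMod CI E A' :=
  ⟨m.γ, m.φ.comp (ψ : A' →ₙₐ[ℂ] A), m.F, m.F', m.complete, m.gen, m.γ_adj, m.γ_sq,
    fun a => (congrArg (fun z => IsAdj CI (m.φ (ψ a)) (m.φ z)) (map_star ψ a)).mpr
      (m.φ_adj (ψ a)),
    m.F_adj, fun a => m.even (ψ a), m.odd, fun a => m.sq (ψ a), fun a => m.sa (ψ a),
    fun a => m.comm (ψ a)⟩

end Eval

variable {A B : Type} [NonUnitalCStarAlgebra A] [NonUnitalCStarAlgebra B]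

/-- Homotopy of cycles. -/
inductive Htpy : Cyc A → Cyc A → Prop
  | mk {H K : Type} [NormedAddCommGroup H] [InnerProductSpace ℂ H] [CompleteSpace H]
      [NormedAddCommGroup K] [InnerProductSpace ℂ K] [CompleteSpace K]
      (a : Fredholm A H) (b : Fredholm A K) : Homotopic a b → Htpy ⟨H, a⟩ ⟨K, b⟩

variable (A) in
/-- Kasparov's group `KK_0(A, ℂ)`: cycles modulo homotopy, with the direct sum as addition. -/
abbrev KK : Type 1 := Pres (Htpy (A := A)) Cyc.IsSum

theorem comap_htpy (ψ : B →⋆ₙₐ[ℂ] A) :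
    ∀ a b : Cyc A, Htpy a b → Htpy (a.comap ψ) (b.comap ψ) := by
  rintro _ _ ⟨a, b, E, _, _, _, _, m, ⟨π, h⟩, π', h'⟩
  exact .mk (a.comap ψ) (b.comap ψ) ⟨E, _, _, _, _, m.comap ψ,
    ⟨π, h.dense, h.inn, h.γ, fun x => h.ρ (ψ x), h.F⟩,
    π', h'.dense, h'.inn, h'.γ, fun x => h'.ρ (ψ x), h'.F⟩

/-- Contravariant functoriality of `KK_0(A, ℂ)` in `A`. -/
noncomputable def KK.comap (ψ : B →⋆ₙₐ[ℂ] A) : KK A →+ KK B :=
  Pres.map (Cyc.comap ψ) (comap_htpy ψ) (Cyc.comap_isSum ψ)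

/-- The coarse K-homology group `KX_0(X) = lim_r KK_0(C_0(P_r(X)), ℂ)`. -/
abbrev KX0 (X : Type) [MetricSpace X] [BddGeometry X] : Type 1 :=
  AddCommGroup.DirectLimit (fun r : ℝ => KK C₀(Rips X r, ℂ))
    (fun _ _ h => KK.comap (c0Comap (ripsInclCo h)))

/-- The class in `KX_0(X)` of a cycle over `C_0(P_r(X))`. -/
noncomputable def KX0.cls {X : Type} [MetricSpace X] [BddGeometry X] (r : ℝ)
    (c : Cyc C₀(Rips X r, ℂ)) : KX0 X :=
  limOf (G := fun r : ℝ => KK C₀(Rips X r, ℂ))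
    (fun _ _ h => KK.comap (c0Comap (ripsInclCo h))) r (Pres.of _ _ c)

/-- `μ : KX_0(X) → K_0(A)` is the coarse assembly map for the completion `i : ℂ[X] → A`: the
image of the class of a Fredholm module over `C_0(P_r(X))` is the index of the finite
propagation operator `p₁ Φ p₀`, that is, of `∑_x ρ(√t_x) F ρ(√t_x)`, where the `t_x` are the
barycentric coordinates. -/
def IsAssembly {X H : Type} [MetricSpace X] [BddGeometry X] [NormedAddCommGroup H]
    [InnerProductSpace ℂ H] [CompleteSpace H]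
    (b : HilbertBasis (X × ℕ) ℂ H) (i : (H →L[ℂ] H) → A) (μ : KX0 X →+ KC A) : Prop :=
  ∀ (r : ℝ) (E K : Type) [NormedAddCommGroup E] [InnerProductSpace ℂ E] [CompleteSpace E]
    [NormedAddCommGroup K] [InnerProductSpace ℂ K] [CompleteSpace K] (e : HilbertBasis ℕ ℂ K)
    (c : Fredholm C₀(Rips X r, ℂ) E),
    (∃ w p₀ p₁ Φ, IsAmplification b e (bary r) c w p₀ p₁ Φ) ∧
    ∀ w p₀ p₁ Φ, IsAmplification b e (bary r) c w p₀ p₁ Φ →
      IsIndex i p₀ p₁ Φ (μ (KX0.cls r ⟨E, c⟩))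

variable (A) in
/-- The evaluations of a Kasparov `(A, C([0,1]))`-module exist and are unique up to unitary
equivalence. -/
def EvalWellDefined : Prop :=
  ∀ (E : Type) [NormedAddCommGroup E] [NormedSpace ℂ E] [SMul CI E] [CStarModule CI E]
    (m : KMod CI E A) (t : unitInterval),
    (∃ (H : Type) (_ : NormedAddCommGroup H) (_ : InnerProductSpace ℂ H) (_ : CompleteSpace H)
      (c : Fredholm A H) (π : E →ₗ[ℂ] H), IsEval m t c π) ∧
    ∀ (H K : Type) [NormedAddCommGroup H] [InnerProductSpace ℂ H] [CompleteSpace H]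
      [NormedAddCommGroup K] [InnerProductSpace ℂ K] [CompleteSpace K] (a : Fredholm A H)
      (b : Fredholm A K) (π : E →ₗ[ℂ] H) (π' : E →ₗ[ℂ] K),
      IsEval m t a π → IsEval m t b π' → UnitEq a b

end Vale.Agent.P212H
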