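import Vale.Agent.P212H52.Alg

/-! Strongly continuous families, norm continuous compact families, and their localized forms. -/

set_option linter.unusedSectionVars false

namespace Vale.Agent.P212H

open Vale.Agent.P212 Vale.Agent.P212Z Filter Topology Metric
open ContinuousLinearMap hiding proj

section KC

variable {D E G : Type} [NormedAddCommGroup D] [NormedSpace ℂ D] [NormedAddCommGroup E]
  [NormedSpace ℂ E] [NormedAddCommGroup G] [NormedSpace ℂ G]

theorem tendsto_comp_cpt {T : Type} {l : Filter T} {a : T → E →L[ℂ] G} {C : ℝ}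
    (hC : ∀ t, ‖a t‖ ≤ C) (h : ∀ ξ, Tendsto (fun t => a t ξ) l (𝓝 0)) {K : D →L[ℂ] E}
    (hK : Cpt K) : Tendsto (fun t => a t ∘L K) l (𝓝 0) := by
  rw [NormedAddGroup.tendsto_nhds_zero]
  intro ε hε
  have h0 : 0 < ε / (|C| + 2) := by positivity
  have h1 := IsCompactOperator.isCompact_closure_image_closedBall (f := (K : D →ₗ[ℂ] E)) hK 1
  obtain ⟨s, -, hs, hs'⟩ := h1.finite_cover_balls h0
  have h2 : ∀ᶠ t in l, ∀ ξ ∈ s, ‖a t ξ‖ < ε / (|C| + 2) :=
    (eventually_all_finite hs).2 fun ξ _ => NormedAddGroup.tendsto_nhds_zero.1 (h ξ) _ h0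
  filter_upwards [h2] with t ht
  have h3 : ‖a t ∘L K‖ ≤ (|C| + 1) * (ε / (|C| + 2)) := by
    refine opNorm_le_of_unit_norm (by positivity) fun x hx => ?_
    obtain ⟨ξ, hξ, h4⟩ := Set.mem_iUnion₂.1
      (hs' (subset_closure ⟨x, mem_closedBall_zero_iff.2 hx.le, rfl⟩))
    have h5 : ‖K x - ξ‖ ≤ ε / (|C| + 2) := (mem_ball_iff_norm.1 h4).le
    have h6 : a t (K x) = a t (K x - ξ) + a t ξ := by rw [map_sub, sub_add_cancel]
    have h7 := (a t).le_of_opNorm_le_of_le ((hC t).trans (le_abs_self C)) h5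
    rw [comp_apply, h6]
    linarith [norm_add_le (a t (K x - ξ)) (a t ξ), ht ξ hξ]
  refine h3.trans_lt ?_
  rw [← mul_div_assoc, div_lt_iff₀ (by positivity)]
  nlinarith

end KC

section End

variable {H : Type} [NormedAddCommGroup H] [InnerProductSpace ℂ H] [CompleteSpace H]
  {m k l : unitInterval → H →L[ℂ] H}

/-- Norm continuous families of compact operators. -/
def KF (k : unitInterval → H →L[ℂ] H) : Prop := Continuous k ∧ ∀ t, Cpt (k t)

theorem SC.star (h : SC m) : SC fun t => star (m t) :=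
  ⟨h.bdd.imp fun _ hC t => (norm_star _).le.trans (hC t), h.cont',
    fun ξ => by simpa only [star_star] using h.cont ξ⟩

theorem KF.star (h : KF k) : KF fun t => star (k t) := ⟨h.1.star, fun t => (h.2 t).star⟩

theorem KF.zero : KF fun _ => (0 : H →L[ℂ] H) := ⟨continuous_const, fun _ => Cpt.zero⟩

theorem KF.add (h : KF k) (h' : KF l) : KF fun t => k t + l t :=
  ⟨h.1.add h'.1, fun t => (h.2 t).add (h'.2 t)⟩

theorem KF.neg (h : KF k) : KF fun t => -k t := ⟨h.1.neg, fun t => (h.2 t).neg⟩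

theorem KF.sum {ι : Type} (s : Finset ι) {k : ι → unitInterval → H →L[ℂ] H} (h : ∀ i, KF (k i)) :
    KF fun t => ∑ i ∈ s, k i t :=
  ⟨continuous_finsetSum _ fun i _ => (h i).1, fun t => Cpt.sum _ _ fun i _ => (h i).2 t⟩

theorem KF.left (hm : SC m) (h : KF k) : KF fun t => m t * k t := by
  refine ⟨continuous_iff_continuousAt.2 fun s => ?_, fun t => (h.2 t).mul_left _⟩
  obtain ⟨C, hC⟩ := hm.bdd
  have h1 := tendsto_comp_cpt (l := 𝓝 s) (a := fun t => m t - m s) (C := C + C)
    (fun t => (norm_sub_le _ _).trans (add_le_add (hC t) (hC s)))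
    (fun ξ => tendsto_sub_nhds_zero_iff.2 ((hm.cont ξ).tendsto s)) (h.2 s)
  have h2 := Filter.isBoundedUnder_le_mul_tendsto_zero (f := m) (l := 𝓝 s)
    (isBoundedUnder_of ⟨C, hC⟩) (tendsto_sub_nhds_zero_iff.2 (h.1.tendsto s))
  have h3 := h1.add h2
  rw [add_zero] at h3
  refine tendsto_sub_nhds_zero_iff.1 (h3.congr fun t => ?_)
  rw [← mul_def]
  noncomm_ring

theorem KF.right (hm : SC m) (h : KF k) : KF fun t => k t * m t := by
  simpa only [star_mul, star_star] using (h.star.left hm.star).star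

end End

variable {A : Type} [NonUnitalCStarAlgebra A] {Y : Type} (π : Part A Y)

theorem cont_of_inc {m : unitInterval → OpY Y} (hb : ∃ C : ℝ, ∀ t, ‖m t‖ ≤ C)
    (h : ∀ y ξ, Continuous fun t => m t (inc y ξ)) (ξ : LP Y) : Continuous fun t => m t ξ := by
  obtain ⟨C, hC⟩ := hb
  let S : Submodule ℂ (LP Y) :=
    { carrier := {ξ | Continuous fun t => m t ξ}
      add_mem' := fun {a b} ha hb => (Continuous.add ha hb).congr fun t => (map_add (m t) a b).symm
      zero_mem' := by simpa only [Set.mem_ofPred_eq, map_zero] using continuous_const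
      smul_mem' := fun c a ha =>
        (Continuous.const_smul ha c).congr fun t => (map_smul (m t) c a).symm }
  have hS : IsClosed (S : Set (LP Y)) := by
    refine isClosed_of_closure_subset fun η hη => ?_
    refine continuous_of_uniform_approx_of_continuous fun u hu => ?_
    obtain ⟨ε, hε, hu⟩ := Metric.mem_uniformity_dist.1 hu
    obtain ⟨ζ, hζ, h1⟩ := Metric.mem_closure_iff.1 hη (ε / (|C| + 1)) (by positivity)
    refine ⟨_, hζ, fun t => hu ?_⟩
    rw [dist_eq_norm, ← map_sub]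
    rw [dist_eq_norm] at h1
    refine ((m t).le_of_opNorm_le_of_le ((hC t).trans (le_abs_self C)) h1.le).trans_lt ?_
    rw [← mul_div_assoc, div_lt_iff₀ (by positivity)]
    nlinarith
  have : CompleteSpace S := hS.completeSpace_coe
  have h2 : S.starProjection = 1 := clm_ext_inc fun y ξ =>
    Submodule.starProjection_eq_self_iff.2 (h y ξ)
  exact (Submodule.starProjection_eq_self_iff (K := S)).1 (by rw [h2]; rfl)

/-- The projection onto the summand `y`. -/
noncomputable def qy (y : Y) : OpY Y := inc y ∘L slice y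

theorem star_qy (y : Y) : star (qy y) = qy y := by
  rw [qy, star_eq_adjoint, adjoint_comp, adjoint_slice]
  rfl

theorem qy_mul_qy (N : OpY Y) (y z : Y) : qy y * N * qy z = inc y ∘L bl N y z ∘L slice z := rfl

theorem qy_row {N : OpY Y} {y : Y} {F : Finset Y} (h : ∀ z ∉ F, bl N y z = 0) :
    qy y * N = ∑ z ∈ F, qy y * N * qy z := by
  refine inc_ext fun x => ?_
  rw [finsetSum_comp]
  have h1 : ∀ z, (qy y * N * qy z) ∘L inc x = inc y ∘L bl N y z ∘L (slice z ∘L inc x) :=
    fun z => rfl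
  have h2 : (qy y * N) ∘L inc x = inc y ∘L bl N y x := rfl
  simp only [h1, h2]
  by_cases hx : x ∈ F
  · rw [Finset.sum_eq_single_of_mem x hx fun z _ hz => by
      rw [slice_inc_ne hz, comp_zero, comp_zero], slice_inc_self]
    rfl
  · rw [h x hx, comp_zero, eq_comm]
    exact Finset.sum_eq_zero fun z hz => by
      rw [slice_inc_ne (show z ≠ x from fun e => hx (e ▸ hz)), comp_zero, comp_zero]

/-- Families with norm continuous compact rows. -/
def Row (n : unitInterval → OpY Y) : Prop :=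
  ∀ y, KF (fun t => qy y * n t) ∧ (π.s y = 0 → ∀ t, qy y * n t = 0)

/-- Families with norm continuous compact rows and columns. -/
def Good (n : unitInterval → OpY Y) : Prop := Row π n ∧ Row π fun t => star (n t)

/-- Families which preserve the rows. -/
def Mlt (m : unitInterval → OpY Y) : Prop :=
  ∀ n, Row π n → (Row π fun t => m t * n t) ∧ (Row π fun t => n t * m t) ∧
    (Row π fun t => star (m t) * n t) ∧ Row π fun t => n t * star (m t)

variable {π} {m m' n n' : unitInterval → OpY Y}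

theorem Row.zero : Row π fun _ => 0 := fun _ =>
  ⟨by simpa only [mul_zero] using KF.zero, fun _ _ => mul_zero _⟩

theorem Row.add (h : Row π n) (h' : Row π n') : Row π fun t => n t + n' t := fun y =>
  ⟨by simpa only [mul_add] using (h y).1.add (h' y).1,
    fun h0 t => by rw [mul_add, (h y).2 h0, (h' y).2 h0, add_zero]⟩

theorem Row.neg (h : Row π n) : Row π fun t => -n t := fun y =>
  ⟨by simpa only [mul_neg] using (h y).1.neg, fun h0 t => by rw [mul_neg, (h y).2 h0, neg_zero]⟩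

theorem Row.right (hm : SC m) (h : Row π n) : Row π fun t => n t * m t := fun y =>
  ⟨by simpa only [mul_assoc] using (h y).1.right hm,
    fun h0 t => by rw [← mul_assoc, (h y).2 h0, zero_mul]⟩

theorem SC.const {H : Type} [NormedAddCommGroup H] [InnerProductSpace ℂ H] [CompleteSpace H]
    (a : H →L[ℂ] H) : SC fun _ => a :=
  ⟨⟨‖a‖, fun _ => le_rfl⟩, fun _ => continuous_const, fun _ => continuous_const⟩

theorem Row.left (hm : SC m) (F : Y → Finset Y) (hF : ∀ t y, ∀ z ∉ F y, bl (m t) y z = 0)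
    (h0 : ∀ y, π.s y = 0 → ∀ z ∈ F y, π.s z = 0) (h : Row π n) : Row π fun t => m t * n t := by
  intro y
  have h1 : ∀ t, qy y * (m t * n t) = ∑ z ∈ F y, qy y * (m t * (qy z * n t)) := fun t => by
    rw [← mul_assoc, qy_row (hF t y), Finset.sum_mul]
    simp only [mul_assoc]
  simp only [h1]
  refine ⟨KF.sum _ fun z => ((h z).1.left hm).left (SC.const _), fun hy t => ?_⟩
  exact Finset.sum_eq_zero fun z hz => by rw [(h z).2 (h0 y hy z hz), mul_zero, mul_zero]

theorem Mlt.one : Mlt π fun _ => 1 := fun n h => by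
  simpa only [star_one, one_mul, mul_one, and_self] using h

theorem Mlt.add (h : Mlt π m) (h' : Mlt π m') : Mlt π fun t => m t + m' t := fun n hn => by
  simp only [star_add, add_mul, mul_add]
  exact ⟨(h n hn).1.add (h' n hn).1, (h n hn).2.1.add (h' n hn).2.1,
    (h n hn).2.2.1.add (h' n hn).2.2.1, (h n hn).2.2.2.add (h' n hn).2.2.2⟩

theorem Mlt.neg (h : Mlt π m) : Mlt π fun t => -m t := fun n hn => by
  simp only [star_neg, neg_mul, mul_neg]
  exact ⟨(h n hn).1.neg, (h n hn).2.1.neg, (h n hn).2.2.1.neg, (h n hn).2.2.2.neg⟩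

theorem Mlt.mul (h : Mlt π m) (h' : Mlt π m') : Mlt π fun t => m t * m' t := fun n hn => by
  simp only [star_mul]
  refine ⟨?_, ?_, ?_, ?_⟩
  · simpa only [mul_assoc] using (h _ (h' n hn).1).1
  · simpa only [mul_assoc] using (h' _ (h n hn).2.1).2.1
  · simpa only [mul_assoc] using (h' _ (h n hn).2.2.1).2.2.1
  · simpa only [mul_assoc] using (h _ (h' n hn).2.2.2).2.2.2

theorem Good.left (hm : Mlt π m) (h : Good π n) : Good π fun t => m t * n t :=
  ⟨(hm n h.1).1, by simpa only [star_mul] using (hm _ h.2).2.2.2⟩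

theorem Good.right (hm : Mlt π m) (h : Good π n) : Good π fun t => n t * m t :=
  ⟨(hm n h.1).2.1, by simpa only [star_mul] using (hm _ h.2).2.2.1⟩

theorem sc_amp {U : unitInterval → OpN} (h : SC U) : SC fun t => amp Y (U t) := by
  have hb : ∀ {U : unitInterval → OpN}, SC U → ∃ C : ℝ, ∀ t, ‖amp Y (U t)‖ ≤ C := fun h =>
    h.bdd.imp fun _ hC t => (norm_amp_le' _).trans (hC t)
  have h1 : ∀ {U : unitInterval → OpN}, SC U → ∀ ξ, Continuous fun t => amp Y (U t) ξ := fun h =>
    cont_of_inc (hb h) fun y ξ => ((inc y).continuous.comp (h.cont ξ)).congr fun t =>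
      (congrArg (fun T : L2 ℕ →L[ℂ] LP Y => T ξ) (amp_inc _ y)).symm
  exact ⟨hb h, h1 h, by simpa only [amp_star] using h1 h.star⟩

theorem mlt_amp {U : unitInterval → OpN} (h : SC U) : Mlt π fun t => amp Y (U t) := by
  classical
  have h1 : ∀ {U : unitInterval → OpN}, SC U → ∀ n, Row π n →
      Row π fun t => amp Y (U t) * n t := fun h n hn =>
    hn.left (sc_amp h) (fun y => {y})
      (fun t y z hz => by rw [bl_amp, if_neg fun e => hz (Finset.mem_singleton.2 e.symm)])
      fun y hy z hz => by rwa [Finset.mem_singleton.1 hz]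
  exact fun n hn => ⟨h1 h n hn, hn.right (sc_amp h),
    by simpa only [amp_star] using h1 h.star n hn, hn.right (sc_amp h).star⟩

open Classical in
/-- The neighbours which matter. -/
noncomputable def nbs (π : Part A Y) (y : Y) : Finset Y := if π.s y = 0 then ∅ else π.nb y

theorem nbs_off {y z : Y} (h : z ∉ nbs π y) : π.s y * π.s z = 0 := by
  unfold nbs at h
  split_ifs at h with h0
  · rw [h0, zero_mul]
  · exact π.off y z h

theorem nbs_zero {y : Y} (h : π.s y = 0) : nbs π y = ∅ := if_pos h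

theorem mlt_P {ρ : unitInterval → A →⋆ₙₐ[ℂ] OpN} (h : ∀ a, SC fun t => ρ t a) :
    Mlt π fun t => π.P (ρ t) := by
  have h1 : ∀ ξ, Continuous fun t => π.P (ρ t) ξ := by
    refine cont_of_inc ⟨1, fun t => π.norm_P _⟩ fun y ξ => ?_
    refine (continuous_finsetSum (π.nb y) fun z _ =>
      (inc z).continuous.comp ((h (π.s z * π.s y)).cont ξ)).congr fun t => ?_
    have h2 : π.P (ρ t) ∘L inc y = ∑ z ∈ π.nb y, inc z ∘L ρ t (π.s z * π.s y) := by
      rw [Part.P, comp_assoc, π.adj_V_inc, π.V_rho]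
    have h3 := congrArg (fun T : L2 ℕ →L[ℂ] LP Y => T ξ) h2
    simp only [sum_apply, comp_apply] at h3
    exact h3.symm
  have h2 : SC fun t => π.P (ρ t) :=
    ⟨⟨1, fun t => π.norm_P _⟩, h1, by simpa only [π.star_P] using h1⟩
  intro n hn
  have h3 := hn.left h2 (nbs π) (fun t y z hz => by rw [π.bl_P, nbs_off hz, map_zero])
    fun y hy z hz => by simp [nbs_zero hy] at hz
  simp only [π.star_P]
  exact ⟨h3, hn.right h2, h3, hn.right h2⟩

theorem row_of_bl (hk : ∀ y z, KF fun t => bl (n t) y z)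
    (h0 : ∀ t y z, π.s y * π.s z = 0 → bl (n t) y z = 0) : Row π n := by
  intro y
  have h1 : ∀ t, qy y * n t = ∑ z ∈ nbs π y, inc y ∘L bl (n t) y z ∘L slice z := fun t =>
    qy_row fun z hz => h0 t y z (nbs_off hz)
  simp only [h1]
  refine ⟨KF.sum _ fun z => ⟨?_, fun t => (((hk y z).2 t).comp_right _).comp_left _⟩,
    fun hy t => by rw [nbs_zero hy, Finset.sum_empty]⟩
  exact ((hk y z).1.clm_comp continuous_const).const_clm_comp _

theorem good_of_bl (k : unitInterval → A → OpN) (hk : ∀ a, KF fun t => k t a)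
    (h0 : ∀ t, k t 0 = 0) (h : ∀ t y z, bl (n t) y z = k t (π.s y * π.s z)) : Good π n := by
  refine ⟨row_of_bl (fun y z => by simpa only [h] using hk _) fun t y z e => by rw [h, e, h0],
    row_of_bl (fun y z => by simpa only [bl_star, h] using (hk _).star) fun t y z e => ?_⟩
  rw [bl_star, h, π.comm, e, h0, star_zero]

theorem good_ST {ρ₀ ρ₁ : unitInterval → A →⋆ₙₐ[ℂ] OpN} {U U' : unitInterval → OpN}
    (h₀ : ∀ a, SC fun t => ρ₀ t a) (hU' : SC U')
    (hc : ∀ a, KF fun t => U t * ρ₀ t a - ρ₁ t a * U t)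
    (hi : ∀ a, KF fun t => (U' t * U t - 1) * ρ₀ t a) :
    Good π fun t => π.P (ρ₀ t) * amp Y (U' t) * π.P (ρ₁ t) *
      (π.P (ρ₁ t) * amp Y (U t) * π.P (ρ₀ t)) - π.P (ρ₀ t) := by
  have h1 : Good π fun t => amp Y (U t) * π.P (ρ₀ t) - π.P (ρ₁ t) * amp Y (U t) :=
    good_of_bl _ hc (fun t => by simp) fun t y z => by
      rw [bl_sub, bl_amp_mul, bl_mul_amp, π.bl_P, π.bl_P]
  have h2 : Good π fun t => amp Y (U' t * U t - 1) * π.P (ρ₀ t) :=
    good_of_bl _ hi (fun t => by simp) fun t y z => by rw [bl_amp_mul, π.bl_P]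
  have h3 := (h1.left ((mlt_P h₀).mul (mlt_amp hU')).neg).right (mlt_P h₀)
  have h4 := h2.left (mlt_P h₀)
  have h5 : ∀ t, π.P (ρ₀ t) * amp Y (U' t) * π.P (ρ₁ t) *
      (π.P (ρ₁ t) * amp Y (U t) * π.P (ρ₀ t)) - π.P (ρ₀ t) =
      -(π.P (ρ₀ t) * amp Y (U' t)) * (amp Y (U t) * π.P (ρ₀ t) - π.P (ρ₁ t) * amp Y (U t)) *
        π.P (ρ₀ t) + π.P (ρ₀ t) * (amp Y (U' t * U t - 1) * π.P (ρ₀ t)) := fun t => by
    have e : ∀ (ρ : A →⋆ₙₐ[ℂ] OpN) x, π.P ρ * (π.P ρ * x) = π.P ρ * x := fun ρ x => by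
      rw [← mul_assoc, π.P_idem]
    simp only [amp_sub, amp_mul, amp_one, mul_sub, sub_mul, neg_mul, mul_assoc, one_mul, e,
      π.P_idem]
    abel
  simp only [h5]
  exact ⟨h3.1.add h4.1, by simpa only [star_add] using h3.2.add h4.2⟩

end Vale.Agent.P212H
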