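import Vale.Agent.P212H52.Defs
import Vale.Agent.P212Z.Bridge

/-! The rows of the homotopy invariance proof. -/

namespace Vale.Agent.P212H

open Vale.Agent.P212 Vale.Agent.P212Z ZeroAtInfty ContinuousLinearMap
open scoped ComplexOrder

/-- Bounded *-strongly continuous families. -/
structure SC {H : Type} [NormedAddCommGroup H] [InnerProductSpace ℂ H] [CompleteSpace H]
    (m : unitInterval → H →L[ℂ] H) : Prop where
  bdd : ∃ C : ℝ, ∀ t, ‖m t‖ ≤ C
  cont : ∀ ξ, Continuous fun t => m t ξ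
  cont' : ∀ ξ, Continuous fun t => star (m t) ξ

/-- A continuous family of modules on `l^2(ℕ)`. -/
structure QFam {A : Type} [NonUnitalCStarAlgebra A] (d : unitInterval → Quad A) : Prop where
  ρ₀ : ∀ a, SC fun t => (d t).ρ₀ a
  ρ₁ : ∀ a, SC fun t => (d t).ρ₁ a
  U : SC fun t => (d t).U
  U' : SC fun t => (d t).U'
  c₀ : ∀ a, Continuous fun t => (d t).U * (d t).ρ₀ a - (d t).ρ₁ a * (d t).U
  c₁ : ∀ a, Continuous fun t => (d t).U' * (d t).ρ₁ a - (d t).ρ₀ a * (d t).U'
  i₀ : ∀ a, Continuous fun t => ((d t).U' * (d t).U - 1) * (d t).ρ₀ a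
  i₁ : ∀ a, Continuous fun t => ((d t).U * (d t).U' - 1) * (d t).ρ₁ a

/-- The cycle `c` is the evaluation of `m` at `t`. -/
def EvalC {A E : Type} [NonUnitalCStarAlgebra A] [NormedAddCommGroup E] [NormedSpace ℂ E]
    [SMul CI E] [CStarModule CI E] (m : KMod CI E A) (t : unitInterval) (c : Kas.Cyc A) : Prop :=
  ∃ π, @IsEval A E c.H _ _ _ _ _ c.nacg c.ips c.cs m t c.fm π

/-- Row: evaluations exist and are unique. -/
def EVAL : Prop := ∀ (A : Type) [NonUnitalCStarAlgebra A], EvalWellDefined A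

/-- Row: unitary equivalences and operator homotopies are homotopies. -/
def SIM : Prop := ∀ (A : Type) [NonUnitalCStarAlgebra A] (a b : Kas.Cyc A), a.Sim b → Htpy a b

/-- Row: fibrewise stabilisation. There are isometries `w t : H t → l^2(ℕ)` such that the images
of the elements of `E` are continuous, and continuous fields `r n`, total at each `t`, with
`(w t)* (r n t) = π t (z n)`. -/
def STAB : Prop :=
  ∀ (E : Type) [NormedAddCommGroup E] [NormedSpace ℂ E] [SMul CI E] [CStarModule CI E],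
    CountablyGen CI E → ∀ (H : unitInterval → Type) [∀ t, NormedAddCommGroup (H t)]
    [∀ t, InnerProductSpace ℂ (H t)] [∀ t, CompleteSpace (H t)] (π : ∀ t, E →ₗ[ℂ] H t),
    (∀ t, DenseRange (π t)) → (∀ t x y, inner ℂ (π t x) (π t y) = inner CI x y t) →
    ∃ (w : ∀ t, H t →L[ℂ] L2 ℕ) (r : ℕ → unitInterval → L2 ℕ) (z : ℕ → E),
      (∀ t, adjoint (w t) ∘L w t = 1) ∧ (∀ x, Continuous fun t => w t (π t x)) ∧
      (∀ n, Continuous (r n)) ∧
      (∀ t, Dense (Submodule.span ℂ (Set.range fun n => r n t) : Set (L2 ℕ))) ∧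
      ∀ n t, adjoint (w t) (r n t) = π t (z n)

/-- Row: the evaluations of a Kasparov module form a continuous family on `l^2(ℕ)`. -/
def FAM : Prop :=
  ∀ (A E : Type) [NonUnitalCStarAlgebra A] [NormedAddCommGroup E] [NormedSpace ℂ E] [SMul CI E]
    [CStarModule CI E] (m : KMod CI E A) (c : unitInterval → Kas.Cyc A),
    (∀ t, EvalC m t (c t)) → ∃ (w : ∀ t, (toOld (c t)).M.H →L[ℂ] L2 ℕ)
      (hw : ∀ t, adjoint (w t) ∘L w t = 1), QFam fun t => (toOld (c t)).quad (w t) (hw t)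

/-- Row: the local index is constant in continuous families. -/
def SWINDLE : Prop :=
  ∀ {M Q B : Type} [Ring M] [Algebra ℂ M] [Ring Q] [NormedRing B] [NormedAlgebra ℂ B]
    [CompleteSpace B] {R : Rel M Q B} {A : Type} [NonUnitalCStarAlgebra A] {Y Θ : Type}
    (C : Ctx R A Y Θ) (d : unitInterval → Quad A), QFam d →
    (C.dat (d 0)).ind = (C.dat (d 1)).ind

/-- The main statement. -/
def MAIN : Prop :=
  ∃ (X : Type) (_ : MetricSpace X) (_ : BddGeometry X) (_ : UnifDiscrete X),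
    (∃ (H A : Type) (_ : NormedAddCommGroup H) (_ : InnerProductSpace ℂ H)
      (_ : CompleteSpace H) (_ : NonUnitalCStarAlgebra A) (b : HilbertBasis (X × ℕ) ℂ H)
      (i : (H →L[ℂ] H) → A), IsMaxRoe b i) ∧
    (∃ (H A : Type) (_ : NormedAddCommGroup H) (_ : InnerProductSpace ℂ H)
      (_ : CompleteSpace H) (_ : NonUnitalCStarAlgebra A) (b : HilbertBasis (X × ℕ) ℂ H)
      (i : (H →L[ℂ] H) → A), IsReducedRoe b i) ∧
    ∀ (H A : Type) [NormedAddCommGroup H] [InnerProductSpace ℂ H] [CompleteSpace H]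
      [NonUnitalCStarAlgebra A] (b : HilbertBasis (X × ℕ) ℂ H) (i : (H →L[ℂ] H) → A),
      IsMaxRoe b i ∨ IsReducedRoe b i →
      ∃ μ : KX0 X →+ KC A, IsAssembly b i μ ∧
        (∀ μ', IsAssembly b i μ' → μ' = μ) ∧ ¬ RatInj μ ∧ BigKer μ

end Vale.Agent.P212H
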