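import Vale.Agent.P212H52.Blk

/-! The local index is constant in continuous families. -/

set_option linter.unusedSectionVars false

namespace Vale.Agent.P212H

open Vale.Agent.P212 Vale.Agent.P212Z Matrix

variable {M Q B : Type} [Ring M] [Algebra ℂ M] [Ring Q] [NormedRing B] [NormedAlgebra ℂ B]
  [CompleteSpace B] {R : Rel M Q B} {A : Type} [NonUnitalCStarAlgebra A] {Y Θ : Type}

theorem del_iso' {ι : Type} [Fintype ι] [DecidableEq ι] (x y : IPair R ι) {w w' : M}
    (hw : w' * w = 1) (e1 : ∀ a b, x.e a b * w = w * y.e a b)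
    (e2 : ∀ a b, w' * x.e a b = y.e a b * w') (f1 : ∀ a b, x.f a b * w = w * y.f a b)
    (f2 : ∀ a b, w' * x.f a b = y.f a b * w')
    (h : ∀ a b, x.e a b * (1 - w * w') = x.f a b * (1 - w * w')) : x.del = y.del := by
  have h1 : (1 : Matrix ι ι M) - diagonal (fun _ => w) * diagonal (fun _ => w') =
      diagonal fun _ => 1 - w * w' := by
    rw [diagonal_mul_diagonal, ← diagonal_one, diagonal_sub]
  refine del_iso x y (W := diagonal fun _ => w) (W' := diagonal fun _ => w') ?_ ?_ ?_ ?_ ?_ ?_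
  · rw [diagonal_mul_diagonal, ← diagonal_one]
    simp only [hw]
  · ext a b
    rw [mul_diagonal, diagonal_mul, e1]
  · ext a b
    rw [mul_diagonal, diagonal_mul, e2]
  · ext a b
    rw [mul_diagonal, diagonal_mul, f1]
  · ext a b
    rw [mul_diagonal, diagonal_mul, f2]
  · ext a b
    rw [h1, mul_diagonal, mul_diagonal, h]

variable (C : Ctx R A Y Θ)

/-- The amplification as a ring homomorphism. -/
def amH : OpN →+* M where
  toFun := C.am
  map_one' := C.ext' fun t => by rw [C.ev_am, map_one, Pi.one_apply, amp_one]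
  map_mul' := C.am_mul
  map_zero' := C.am_zero
  map_add' := C.am_add

theorem ev_amH (U : OpN) (t : Θ) : C.ev (amH C U) t = amp Y U := C.ev_am U t

theorem M_ext {a b : M} (h : ∀ j, a * amH C (vv j) = b * amH C (vv j)) : a = b :=
  C.ext' fun t => bl_ext fun y z => vv_ext fun j => by
    have h1 := congrArg (fun m => bl (C.ev m t) y z) (h j)
    simpa only [map_mul, Pi.mul_apply, ev_amH, bl_mul_amp] using h1

theorem M_ext' {a b : M} (h : ∀ j, amH C (star (vv j)) * a = amH C (star (vv j)) * b) : a = b :=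
  C.ext' fun t => bl_ext fun y z => vv_ext' fun j => by
    have h1 := congrArg (fun m => bl (C.ev m t) y z) (h j)
    simpa only [map_mul, Pi.mul_apply, ev_amH, bl_amp_mul] using h1

/-- Families together with their amplifications. -/
def Sr : Subring (((JJ → unitInterval) → M) × (unitInterval → M)) where
  carrier := {x | (∀ τ j, x.1 τ * amH C (vv j) = amH C (vv j) * x.2 (τ j)) ∧
    (∀ τ j, amH C (star (vv j)) * x.1 τ = x.2 (τ j) * amH C (star (vv j))) ∧
    ∀ θ, Mlt (C.π θ) fun t => C.ev (x.2 t) θ}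
  mul_mem' := fun {a b} ha hb => ⟨fun τ j => by
      rw [Prod.fst_mul, Prod.snd_mul, Pi.mul_apply, Pi.mul_apply, mul_assoc, hb.1, ← mul_assoc,
        ha.1, mul_assoc],
    fun τ j => by
      rw [Prod.fst_mul, Prod.snd_mul, Pi.mul_apply, Pi.mul_apply, ← mul_assoc, ha.2.1, mul_assoc,
        hb.2.1, mul_assoc],
    fun θ => by
      simpa only [Prod.snd_mul, Pi.mul_apply, map_mul] using (ha.2.2 θ).mul (hb.2.2 θ)⟩
  one_mem' := ⟨fun τ j => (one_mul _).trans (mul_one _).symm,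
    fun τ j => (mul_one _).trans (one_mul _).symm,
    fun θ => by simpa only [Prod.snd_one, Pi.one_apply, map_one] using Mlt.one⟩
  add_mem' := fun {a b} ha hb => ⟨fun τ j => by
      rw [Prod.fst_add, Prod.snd_add, Pi.add_apply, Pi.add_apply, add_mul, mul_add, ha.1, hb.1],
    fun τ j => by
      rw [Prod.fst_add, Prod.snd_add, Pi.add_apply, Pi.add_apply, add_mul, mul_add, ha.2.1,
        hb.2.1],
    fun θ => by
      simpa only [Prod.snd_add, Pi.add_apply, map_add] using (ha.2.2 θ).add (hb.2.2 θ)⟩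
  zero_mem' := ⟨fun τ j => (zero_mul _).trans (mul_zero _).symm,
    fun τ j => (mul_zero _).trans (zero_mul _).symm,
    fun θ => by
      simpa only [Prod.snd_zero, Pi.zero_apply, map_zero, add_neg_cancel] using
        (Mlt.one (π := C.π θ)).add Mlt.one.neg⟩
  neg_mem' := fun {a} ha => ⟨fun τ j => by
      rw [Prod.fst_neg, Prod.snd_neg, Pi.neg_apply, Pi.neg_apply, neg_mul, mul_neg, ha.1],
    fun τ j => by
      rw [Prod.fst_neg, Prod.snd_neg, Pi.neg_apply, Pi.neg_apply, neg_mul, mul_neg, ha.2.1],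
    fun θ => by simpa only [Prod.snd_neg, Pi.neg_apply, map_neg] using (ha.2.2 θ).neg⟩

/-- The amplification along `τ`. -/
def e1 (τ : JJ → unitInterval) : Sr C →+* M :=
  (Pi.evalRingHom (fun _ => M) τ).comp ((RingHom.fst _ _).comp (Sr C).subtype)

/-- The value at `t`. -/
def e2 (t : unitInterval) : Sr C →+* M :=
  (Pi.evalRingHom (fun _ => M) t).comp ((RingHom.snd _ _).comp (Sr C).subtype)

variable {C} {τ τ' : JJ → unitInterval}

theorem e_vv (x : Sr C) (τ : JJ → unitInterval) (j : JJ) :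
    e1 C τ x * amH C (vv j) = amH C (vv j) * e2 C (τ j) x := x.2.1 τ j

theorem vv_e (x : Sr C) (τ : JJ → unitInterval) (j : JJ) :
    amH C (star (vv j)) * e1 C τ x = e2 C (τ j) x * amH C (star (vv j)) := x.2.2.1 τ j

theorem mlt_e (x : Sr C) (θ : Θ) : Mlt (C.π θ) fun t => C.ev (e2 C t x) θ := x.2.2.2 θ

theorem S_ext {x y : Sr C} (h : ∀ t, e2 C t x = e2 C t y) : x = y :=
  Subtype.ext (Prod.ext (funext fun τ => M_ext C fun j =>
    (e_vv x τ j).trans (by rw [h]; exact (e_vv y τ j).symm)) (funext h))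

theorem S_ext' {ι : Type} {x y : Matrix ι ι (Sr C)} (h : ∀ t, x.map (e2 C t) = y.map (e2 C t)) :
    x = y := Matrix.ext fun a b => S_ext fun t => congrFun (congrFun (h t) a) b

theorem e_compl (x : Sr C) {V : OpN}
    (h : ∀ k, (1 - V * star V) * vv k = 0 ∨ (star V * vv k = 0 ∧ τ k = τ' k)) :
    e1 C τ x * (1 - amH C V * amH C (star V)) = e1 C τ' x * (1 - amH C V * amH C (star V)) := by
  refine M_ext C fun k => ?_
  rw [← map_mul, ← map_one (amH C), ← map_sub, mul_assoc, mul_assoc, ← map_mul]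
  rcases h k with h1 | ⟨h1, h2⟩
  · rw [h1, map_zero, mul_zero, mul_zero]
  · rw [sub_mul, mul_assoc, h1, mul_zero, sub_zero, one_mul, e_vv, e_vv, h2]

/-- The families which are locally compact and locally norm continuous. -/
def Idl (C : Ctx R A Y Θ) : TwoSidedIdeal (Sr C) :=
  TwoSidedIdeal.mk' {x | ∀ θ, Good (C.π θ) fun t => C.ev (e2 C t x) θ}
    (fun θ => by
      simp only [map_zero, Pi.zero_apply]
      exact ⟨Row.zero, by simpa only [star_zero] using Row.zero⟩)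
    (fun {a b} ha hb θ => by
      simp only [map_add, Pi.add_apply]
      exact ⟨(ha θ).1.add (hb θ).1, by simpa only [star_add] using (ha θ).2.add (hb θ).2⟩)
    (fun {a} ha θ => by
      simp only [map_neg, Pi.neg_apply]
      exact ⟨(ha θ).1.neg, by simpa only [star_neg] using (ha θ).2.neg⟩)
    (fun {a b} hb θ => by
      simpa only [map_mul, Pi.mul_apply] using (hb θ).left (mlt_e a θ))
    fun {a b} ha θ => by
      simpa only [map_mul, Pi.mul_apply] using (ha θ).right (mlt_e b θ)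

theorem idq_eq {x y : Sr C} : (Idl C).ringCon.mk' x = (Idl C).ringCon.mk' y ↔
    ∀ θ, Good (C.π θ) fun t => C.ev (e2 C t (x - y)) θ := by
  refine (RingCon.eq _).trans (((Idl C).rel_iff x y).trans ?_)
  rw [Idl, TwoSidedIdeal.mem_mk']
  rfl

theorem q_key {x y : Sr C} (hq : (Idl C).ringCon.mk' x = (Idl C).ringCon.mk' y)
    (hy : e1 C τ y = e1 C τ' y) (h : Asy τ τ') : R.q (e1 C τ x) = R.q (e1 C τ' x) := by
  have h1 : e1 C τ x - e1 C τ' x = e1 C τ (x - y) - e1 C τ' (x - y) := by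
    rw [map_sub, map_sub, hy, sub_sub_sub_cancel_right]
  rw [← sub_eq_zero, ← map_sub, h1]
  refine C.q_zero _ fun θ => lcs_key (idq_eq.1 hq θ) h (fun j => ?_) fun j => ?_
  · rw [← ev_amH C, ← Pi.mul_apply, ← map_mul, sub_mul, e_vv, e_vv, ← mul_sub, map_mul, map_sub]
    rfl
  · rw [← ev_amH C, ← Pi.mul_apply, ← map_mul, mul_sub, vv_e, vv_e, ← sub_mul, map_mul, map_sub]
    rfl

/-- The projections of a family of representations. -/
noncomputable def pS (C : Ctx R A Y Θ) {ρ : unitInterval → A →⋆ₙₐ[ℂ] OpN}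
    (h : ∀ a, SC fun t => ρ t a) : Sr C :=
  ⟨(fun τ => C.P (Ψρ τ ρ), fun t => C.P (ρ t)),
    fun τ j => C.ext' fun θ => bl_ext fun y z => by
      rw [map_mul, map_mul, Pi.mul_apply, Pi.mul_apply, ev_amH, C.ev_P, C.ev_P, bl_mul_amp,
        bl_amp_mul, Part.bl_P, Part.bl_P]
      exact Ψ_vv τ (bdd_rho ρ _) j,
    fun τ j => C.ext' fun θ => bl_ext fun y z => by
      rw [map_mul, map_mul, Pi.mul_apply, Pi.mul_apply, ev_amH, C.ev_P, C.ev_P, bl_mul_amp,
        bl_amp_mul, Part.bl_P, Part.bl_P]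
      exact vv_Ψ τ (bdd_rho ρ _) j,
    fun θ => by simpa only [C.ev_P] using mlt_P h⟩

/-- The amplifications of a family of operators. -/
noncomputable def aS (C : Ctx R A Y Θ) {U : unitInterval → OpN} (h : SC U) : Sr C :=
  ⟨(fun τ => amH C (Ψ τ U), fun t => amH C (U t)),
    fun τ j => by rw [← map_mul, ← map_mul, Ψ_vv τ h.bdd],
    fun τ j => by rw [← map_mul, ← map_mul, vv_Ψ τ h.bdd],
    fun θ => by simpa only [ev_amH] using mlt_amp h⟩

theorem q_ST {ρ₀ ρ₁ : unitInterval → A →⋆ₙₐ[ℂ] OpN} {U U' : unitInterval → OpN}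
    (h₀ : ∀ a, SC fun t => ρ₀ t a) (h₁ : ∀ a, SC fun t => ρ₁ t a) (hU : SC U) (hU' : SC U')
    (hc : ∀ a, KF fun t => U t * ρ₀ t a - ρ₁ t a * U t)
    (hi : ∀ a, KF fun t => (U' t * U t - 1) * ρ₀ t a) :
    (Idl C).ringCon.mk' (pS C h₀ * aS C hU' * pS C h₁ * (pS C h₁ * aS C hU * pS C h₀)) =
      (Idl C).ringCon.mk' (pS C h₀) := by
  refine idq_eq.2 fun θ => ?_
  have a1 : ∀ {ρ : unitInterval → A →⋆ₙₐ[ℂ] OpN} (h : ∀ a, SC fun t => ρ t a) t,
      C.ev (e2 C t (pS C h)) θ = (C.π θ).P (ρ t) := fun _ _ => C.ev_P _ _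
  have a2 : ∀ {U : unitInterval → OpN} (h : SC U) t, C.ev (e2 C t (aS C h)) θ = amp Y (U t) :=
    fun _ _ => C.ev_am _ _
  simp only [RingHom.map_sub, RingHom.map_mul, Pi.sub_apply, Pi.mul_apply, a1, a2]
  exact good_ST h₀ hU' hc hi

theorem exists_D (C : Ctx R A Y Θ) {d : unitInterval → Quad A} (hd : QFam d) :
    ∃ D : Matrix (Fin 2 ⊕ Fin 2) (Fin 2 ⊕ Fin 2) (Sr C), D * D = D ∧
      D.map (Idl C).ringCon.mk' = (oM _ (Sr C)).map (Idl C).ringCon.mk' ∧
      ∀ t, D.map (e2 C t) = dM (C.dat (d t)).pair.e (C.dat (d t)).pair.f := by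
  let p₀ := pS C hd.ρ₀
  let p₁ := pS C hd.ρ₁
  let T := p₁ * aS C hd.U * p₀
  let S := p₀ * aS C hd.U' * p₁
  have hE : ∀ t, (vecMulVec (xV p₀ T S) (yV p₀ T S)).map (e2 C t) = (C.dat (d t)).pair.e := by
    intro t
    ext a b
    fin_cases a <;> fin_cases b <;> rfl
  have hF : ∀ t, (vecMulVec (pV p₁) (pV p₁)).map (e2 C t) = (C.dat (d t)).pair.f := by
    intro t
    ext a b
    fin_cases a <;> fin_cases b <;> rfl
  have hD : ∀ t, (dM (vecMulVec (xV p₀ T S) (yV p₀ T S)) (vecMulVec (pV p₁) (pV p₁))).map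
      (e2 C t) = dM (C.dat (d t)).pair.e (C.dat (d t)).pair.f := fun t => by rw [dM_map, hE, hF]
  refine ⟨_, S_ext' fun t => ?_, ?_, hD⟩
  · rw [Matrix.map_mul, hD, dM_idem (IPair.he _) (IPair.hf _)]
  · have a1 : p₁ * p₁ = p₁ := S_ext fun t => by
      rw [map_mul]
      exact C.P_idem _
    have a2 : (Idl C).ringCon.mk' (S * T) = (Idl C).ringCon.mk' p₀ :=
      q_ST hd.ρ₀ hd.ρ₁ hd.U hd.U' (fun a => ⟨hd.c₀ a, fun t => (d t).c₀ a⟩)
        fun a => ⟨hd.i₀ a, fun t => (d t).i₀ a⟩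
    have a3 : (Idl C).ringCon.mk' (T * S) = (Idl C).ringCon.mk' p₁ :=
      q_ST hd.ρ₁ hd.ρ₀ hd.U' hd.U (fun a => ⟨hd.c₁ a, fun t => (d t).c₁ a⟩)
        fun a => ⟨hd.i₁ a, fun t => (d t).i₁ a⟩
    rw [dM_map, pair_q _ a1 a2 a3, oM_map]
    refine dM_self (mapMat_idem _ (S_ext' fun t => ?_))
    rw [Matrix.map_mul, hF, IPair.hf]

theorem swindleRow : SWINDLE := by
  intro M Q B _ _ _ _ _ _ R A _ Y Θ C d hd
  obtain ⟨D, h1, h2, h3⟩ := exists_D C hd
  have h4 : ∀ τ τ', Asy τ τ' → (D.map (e1 C τ)).map R.q = (D.map (e1 C τ')).map R.q :=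
    fun τ τ' h => Matrix.ext fun a b => q_key (congrFun (congrFun h2 a) b)
      (congrFun (congrFun ((oM_map (e1 C τ)).trans (oM_map (e1 C τ')).symm) a) b) h
  let x : ∀ τ τ', Asy τ τ' → IPair R (Fin 2 ⊕ Fin 2) := fun τ τ' h =>
    ⟨D.map (e1 C τ), D.map (e1 C τ'), mapMat_idem _ h1, mapMat_idem _ h1, h4 τ τ' h⟩
  obtain ⟨τ, τ', h, t0, t1, t2, t3⟩ := swindle (fun τ τ' h => (x τ τ' h).del)
    (fun _ _ _ _ _ _ => del_cocycle _ _ _ rfl rfl rfl) fun i hi τ τ' h h' hk => by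
      obtain ⟨V, v1, v2, v3⟩ := exists_VV hi
      have a1 : ∀ σ (z : Sr C), e1 C σ z * amH C V = amH C V * e1 C (σ ∘ i) z := fun σ z =>
        M_ext C fun j => by
          rw [mul_assoc (amH C V), e_vv, mul_assoc, ← mul_assoc (amH C V), ← map_mul, v1, e_vv]
          rfl
      have a2 : ∀ σ (z : Sr C), amH C (star V) * e1 C σ z = e1 C (σ ∘ i) z * amH C (star V) :=
        fun σ z => M_ext' C fun j => by
          rw [← mul_assoc _ (e1 C _ z), vv_e, ← mul_assoc, mul_assoc (e2 C _ z), ← map_mul,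
            ← star_mul, v1, vv_e]
          rfl
      refine del_iso' _ _ (w := amH C V) (w' := amH C (star V)) (by rw [← map_mul, v2, map_one])
        (fun a b => a1 τ _) (fun a b => a2 τ _) (fun a b => a1 τ' _) (fun a b => a2 τ' _)
        fun a b => e_compl _ fun k => ?_
      by_cases hk' : k ∈ Set.range i
      · obtain ⟨j, rfl⟩ := hk'
        left
        rw [← v1, sub_mul, one_mul, mul_assoc, ← mul_assoc (star V), v2, one_mul, sub_self]
      · exact Or.inr ⟨v3 k hk', hk k hk'⟩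
  let y : IPair R (Fin 2 ⊕ Fin 2) := ⟨D.map (e2 C 0), D.map (e2 C 1), mapMat_idem _ h1,
    mapMat_idem _ h1, by rw [h3, h3, IPair.dq, IPair.dq]⟩
  have h5 : (x τ τ' h).del = y.del := by
    refine del_iso' _ _ (w := amH C (vv (0, 0))) (w' := amH C (star (vv (0, 0))))
      (by rw [← map_mul, vv_self, map_one]) (fun a b => (e_vv _ τ _).trans (by rw [t0]; rfl))
      (fun a b => (vv_e _ τ _).trans (by rw [t0]; rfl))
      (fun a b => (e_vv _ τ' _).trans (by rw [t1]; rfl))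
      (fun a b => (vv_e _ τ' _).trans (by rw [t1]; rfl)) fun a b => e_compl _ fun k => ?_
    by_cases hk : k = (0, 0)
    · left
      rw [hk, sub_mul, one_mul, mul_assoc, vv_self, mul_one, sub_self]
    · exact Or.inr ⟨vv_ne (Ne.symm hk), t2 k hk⟩
  exact sub_eq_zero.1 ((del_diff _ _ y (h3 0) (h3 1)).symm.trans (h5.symm.trans t3))

end Vale.Agent.P212H
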