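import Vale.Agent.P212H52.Sw
import Vale.Agent.P212H58.Eval
import Vale.Agent.P212H86.Sim
import Vale.Agent.P212H26.Stab
import Vale.Agent.P212H60.Fam
import Vale.Agent.P212H50.Main

/-! The rows put together. -/

namespace Vale.Agent.P212H

open Vale.Agent.P212 Vale.Agent.P212Z

theorem top : (∀ (A : Type) [NonUnitalCStarAlgebra A], EvalWellDefined A ∧
    ∀ a b : Kas.Cyc A, a.Sim b → Htpy a b) ∧ MAIN :=
  ⟨fun A _ => ⟨P212H58.eval A, P212H86.sim A⟩,
    main P212H58.eval (P212H60.fam P212H26.stab) @swindleRow⟩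

end Vale.Agent.P212H
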